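import Vale.Agent.P112.H22.TopSys
import Vale.Agent.P112.H646.Defs

/-!
# Candidates: the dense tops above the active offsets of a tree, seen from a target point `z`

`Sn`: the pair `(z', j)` of the tree with slope `s` is seen from `z`.
`AO`: the active unit offsets of the tree at `z`.
`Rel`: the top `m` lies above a pair of the tree which is seen from `z`.
-/

open MeasureTheory Set
open scoped ENNReal

noncomputable section

namespace Vale.Agent.P112.H22.Cand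

open Vale.Agent.P112.T Vale.Agent.P112.F30 Vale.Agent.P112.H310 Vale.Agent.P112.H295
open Vale.Agent.P112.H22.TopSys

/-- the pair `(z', j)` of the tree `E` with slope `s` is seen from `z` -/
def Sn (E : ℕ → Set (ℝ × ℝ)) (s c0 Y : ℝ) (j : ℕ) (z' z : ℝ × ℝ) : Prop :=
  z' ∈ E j ∧ |z'.1 - z.1| ≤ c0 / 2 ^ j ∧ |(z'.2 - s * z'.1) - (z.2 - s * z.1)| ≤ Y

/-- the active unit offsets at `z` -/
def AO (E : ℕ → Set (ℝ × ℝ)) (s c0 Y : ℝ) (z : ℝ × ℝ) : Set ℤ :=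
  {o | ∃ j z', Sn E s c0 Y j z' z ∧ ⌊z'.2 - s * z'.1⌋ = o}

/-- the top `m` is above the pair `(z', j)` -/
def Ab (u : ℝ × ℝ → ℝ) {κ : Type} (M : Tops κ) (R : ℝ) (z' : ℝ × ℝ) (j : ℕ) (m : κ) : Prop :=
  M.j m ≤ j ∧ q 0 (M.j m) z'.1 = q 0 (M.j m) (M.x m) ∧ |u z' - M.s m| ≤ R * 2 ^ j ∧
    |z'.2 - M.line m z'.1| ≤ R

/-- the top `m` is above a pair of the tree which is seen from `z` -/
def Rel (u : ℝ × ℝ → ℝ) {κ : Type} (M : Tops κ) (R : ℝ) (E : ℕ → Set (ℝ × ℝ)) (s c0 Y : ℝ)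
    (z : ℝ × ℝ) (m : κ) : Prop :=
  ∃ j z', Sn E s c0 Y j z' z ∧ Ab u M R z' j m

variable {u : ℝ × ℝ → ℝ} {κ : Type} {M : Tops κ} {R A c0 Y : ℝ} {E : ℕ → Set (ℝ × ℝ)} {s : ℝ}

theorem AO_finite (z : ℝ × ℝ) : (AO E s c0 Y z).Finite := by
  refine (Set.finite_Icc (⌊z.2 - s * z.1 - Y⌋) (⌊z.2 - s * z.1 + Y⌋)).subset ?_
  rintro o ⟨j, z', ⟨_, _, h⟩, rfl⟩
  rw [abs_le] at h
  exact ⟨Int.floor_le_floor (by linarith [h.1]), Int.floor_le_floor (by linarith [h.2])⟩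

/-- slope of the top against the slope of the tree -/
theorem slope_le {j : ℕ} {z' : ℝ × ℝ} {m : κ} (hA : |u z' - s| ≤ A * 2 ^ j)
    (h : Ab u M R z' j m) : |s - M.s m| ≤ (R + A) * 2 ^ j := by
  have h1 := h.2.2.1
  calc |s - M.s m| ≤ |s - u z'| + |u z' - M.s m| := abs_sub_le _ _ _
    _ ≤ A * 2 ^ j + R * 2 ^ j := by rw [abs_sub_comm s]; exact add_le_add hA h1
    _ = (R + A) * 2 ^ j := by ring

/-- the line of the top at the abscissa of `z`, in the frame of the tree -/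
theorem off_le {j : ℕ} {z z' : ℝ × ℝ} {m : κ} (hx : |z'.1 - z.1| ≤ c0 / 2 ^ j)
    (hA : |u z' - s| ≤ A * 2 ^ j) (h : Ab u M R z' j m) :
    |(z'.2 - s * z'.1) - (M.line m z.1 - s * z.1)| ≤ R + (R + A) * c0 := by
  have h1 := slope_le hA h
  have h2 := h.2.2.2
  have e : (z'.2 - s * z'.1) - (M.line m z.1 - s * z.1) =
      (z'.2 - M.line m z'.1) + (M.s m - s) * (z'.1 - z.1) := by
    unfold Tops.line; ring
  rw [e]
  calc |(z'.2 - M.line m z'.1) + (M.s m - s) * (z'.1 - z.1)|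
      ≤ |z'.2 - M.line m z'.1| + |(M.s m - s) * (z'.1 - z.1)| := abs_add_le _ _
    _ ≤ R + ((R + A) * 2 ^ j) * (c0 / 2 ^ j) := by
        rw [abs_mul, abs_sub_comm (M.s m)]
        gcongr
        exact (abs_nonneg _).trans h1
    _ = R + (R + A) * c0 := by
        have : (2 : ℝ) ^ j ≠ 0 := by positivity
        field_simp

/-- `z` is in the dilated tube of every related top -/
theorem rel_off {z : ℝ × ℝ} {m : κ} (hA : ∀ j, ∀ z' ∈ E j, |u z' - s| ≤ A * 2 ^ j)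
    (h : Rel u M R E s c0 Y z m) : |z.2 - M.line m z.1| ≤ Y + (R + (R + A) * c0) := by
  obtain ⟨j, z', ⟨h1, h2, h3⟩, h4⟩ := h
  have h5 := off_le h2 (hA j z' h1) h4
  have e : z.2 - M.line m z.1 = -((z'.2 - s * z'.1) - (z.2 - s * z.1)) +
      ((z'.2 - s * z'.1) - (M.line m z.1 - s * z.1)) := by ring
  rw [e]
  refine (abs_add_le _ _).trans ?_
  rw [abs_neg]
  exact add_le_add h3 h5

theorem rel_x {z : ℝ × ℝ} {m : κ} (hc0 : 0 ≤ c0) (h : Rel u M R E s c0 Y z m) :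
    ∃ x, q 0 (M.j m) x = q 0 (M.j m) (M.x m) ∧ |x - z.1| ≤ c0 * (2 : ℝ)⁻¹ ^ M.j m := by
  obtain ⟨j, z', ⟨_, h2, _⟩, h4⟩ := h
  refine ⟨z'.1, h4.2.1, h2.trans ?_⟩
  rw [inv_pow, div_eq_mul_inv]
  gcongr
  · norm_num
  · exact h4.1

/-- **many candidates**: the number of the active offsets is at most a constant times the number of
the related tops. -/
theorem cand {z : ℝ × ℝ} [Fintype κ] (hc0 : 0 ≤ c0) (hA0 : 0 ≤ A) (hR : 0 ≤ R)
    (hA : ∀ j, ∀ z' ∈ E j, |u z' - s| ≤ A * 2 ^ j)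
    (hTop : ∀ j, ∀ z' ∈ E j, ∃ m, Ab u M R z' j m) :
    ∃ g : Finset κ, (∀ m ∈ g, Rel u M R E s c0 Y z m) ∧
      ((AO E s c0 Y z).ncard : ℝ) ≤ (2 * (R + (R + A) * c0) + 3) * g.card := by
  classical
  set ρ := R + (R + A) * c0 with hρ
  have hρ0 : 0 ≤ ρ := by positivity
  rcases isEmpty_or_nonempty κ with hκ | hκ
  · have h0 : AO E s c0 Y z = ∅ := by
      ext o
      simp only [mem_empty_iff_false, iff_false]
      rintro ⟨j, z', h1, h2⟩
      obtain ⟨m, hm⟩ := hTop j z' h1.1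
      exact hκ.elim m
    exact ⟨∅, by simp, by rw [h0]; simp⟩
  have hch : ∀ o ∈ AO E s c0 Y z, ∃ m, ∃ j z', Sn E s c0 Y j z' z ∧ ⌊z'.2 - s * z'.1⌋ = o ∧
      Ab u M R z' j m := by
    rintro o ⟨j, z', h1, h2⟩
    obtain ⟨m, hm⟩ := hTop j z' h1.1
    exact ⟨m, j, z', h1, h2, hm⟩
  choose! f hf using hch
  have hfin := AO_finite (E := E) (s := s) (c0 := c0) (Y := Y) z
  set X : Finset ℤ := hfin.toFinset with hX
  have hXc : (AO E s c0 Y z).ncard = X.card := Set.ncard_eq_toFinset_card _ hfin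
  refine ⟨X.image f, ?_, ?_⟩
  · intro m hm
    obtain ⟨o, ho, rfl⟩ := Finset.mem_image.1 hm
    obtain ⟨j, z', h1, _, h3⟩ := hf o (hfin.mem_toFinset.1 ho)
    exact ⟨j, z', h1, h3⟩
  · rw [hXc]
    have hfib : ∀ m ∈ X.image f, (X.filter fun o => f o = m).card ≤ ⌊2 * ρ⌋₊ + 3 := by
      intro m _
      set c := M.line m z.1 - s * z.1 with hc
      have hsub : (X.filter fun o => f o = m) ⊆ Finset.Icc (⌊c - ρ⌋) (⌊c + ρ⌋) := by
        intro o ho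
        obtain ⟨ho1, ho2⟩ := Finset.mem_filter.1 ho
        obtain ⟨j, z', h1, h2, h3⟩ := hf o (hfin.mem_toFinset.1 ho1)
        rw [ho2] at h3
        have h4 := off_le h1.2.1 (hA j z' h1.1) h3
        rw [abs_le] at h4
        rw [Finset.mem_Icc, ← h2]
        exact ⟨Int.floor_le_floor (by linarith [h4.1]), Int.floor_le_floor (by linarith [h4.2])⟩
      refine (Finset.card_le_card hsub).trans ?_
      rw [Int.card_Icc]
      have h5 : ⌊c + ρ⌋ + 1 - ⌊c - ρ⌋ ≤ (⌊2 * ρ⌋₊ : ℤ) + 3 := by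
        have h6 : (⌊c + ρ⌋ : ℝ) ≤ c + ρ := Int.floor_le _
        have h7 : c - ρ < ⌊c - ρ⌋ + 1 := Int.lt_floor_add_one _
        have h8 : 2 * ρ < ⌊2 * ρ⌋₊ + 1 := Nat.lt_floor_add_one _
        have h9 : ((⌊c + ρ⌋ + 1 - ⌊c - ρ⌋ : ℤ) : ℝ) < ((⌊2 * ρ⌋₊ : ℤ) + 3 : ℤ) := by
          push_cast
          linarith
        have := Int.cast_lt.1 h9
        omega
      omega
    have h1 := Finset.card_eq_sum_card_image f X
    rw [h1]
    push_cast
    calc (∑ m ∈ X.image f, ((X.filter fun o => f o = m).card : ℝ))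
        ≤ ∑ m ∈ X.image f, (2 * ρ + 3) := by
          refine Finset.sum_le_sum fun m hm => ?_
          have h2 := hfib m hm
          have h3 : ((⌊2 * ρ⌋₊ : ℕ) : ℝ) ≤ 2 * ρ := Nat.floor_le (by positivity)
          have h4 : (((X.filter fun o => f o = m).card : ℕ) : ℝ) ≤ ((⌊2 * ρ⌋₊ + 3 : ℕ) : ℝ) := by
            exact_mod_cast h2
          push_cast at h4
          linarith
      _ = (2 * ρ + 3) * (X.image f).card := by
          rw [Finset.sum_const, nsmul_eq_mul]; ring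

/-! ## two trees -/

/-- pairs of the two trees seen from `z` are `Q`-separated -/
def PP (E E' : ℕ → Set (ℝ × ℝ)) (s s' c0 Y Q : ℝ) (z : ℝ × ℝ) : Prop :=
  ∀ j z1 j' z2, Sn E s c0 Y j z1 z → Sn E' s' c0 Y j' z2 z → Q * 2 ^ max j j' ≤ |s - s'|

variable {E' : ℕ → Set (ℝ × ℝ)} {s' Q : ℝ}

/-- closeness of the representative -/
theorem rel_close {z : ℝ × ℝ} {m m' : κ} (hR : 0 ≤ R) (hA0 : 0 ≤ A) (hQ : 0 < Q)
    (hA : ∀ j, ∀ z' ∈ E j, |u z' - s| ≤ A * 2 ^ j)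
    (hPP : PP E E' s s' c0 Y Q z) (h : Rel u M R E s c0 Y z m) (h' : Rel u M R E' s' c0 Y z m') :
    |s - M.s m| ≤ (R + A) / Q * |s - s'| ∧ Q * 2 ^ M.j m ≤ |s - s'| := by
  obtain ⟨j, z1, h1, h2⟩ := h
  obtain ⟨j', z2, h1', h2'⟩ := h'
  have h3 := hPP j z1 j' z2 h1 h1'
  have h4 := slope_le (hA j z1 h1.1) h2
  have h5 : (2 : ℝ) ^ j ≤ 2 ^ max j j' := pow_le_pow_right₀ (by norm_num) (le_max_left _ _)
  have h6 : (2 : ℝ) ^ M.j m ≤ 2 ^ j := pow_le_pow_right₀ (by norm_num) h2.1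
  constructor
  · rw [div_mul_eq_mul_div, le_div_iff₀ hQ]
    calc |s - M.s m| * Q ≤ ((R + A) * 2 ^ j) * Q := by gcongr
      _ ≤ ((R + A) * 2 ^ max j j') * Q := by gcongr
      _ = (R + A) * (Q * 2 ^ max j j') := by ring
      _ ≤ (R + A) * |s - s'| := by gcongr
  · calc Q * 2 ^ M.j m ≤ Q * 2 ^ max j j' := mul_le_mul_of_nonneg_left (h6.trans h5) hQ.le
      _ ≤ _ := h3

/-- tops above a common top are close -/
theorem above_slope (S : SysV κ) (hs : S.s = M.s) (hk : S.k = M.j) {j m : κ}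
    (h : S.Above j m) : |M.s j - M.s m| ≤ 2 * (S.A * S.w) * 2 ^ M.j m := by
  have hw := S.w_pos
  have hA := S.one_le_A
  rcases h with h | ⟨h1, p, hp1, hp2⟩
  · rw [h, sub_self, abs_zero]; positivity
  · have h3 := S.V_slope j p hp1
    have h4 := S.V_slope m p hp2
    rw [hs, hk] at h3 h4
    rw [hk] at h1
    rw [inv_pow, div_inv_eq_mul] at h3 h4
    have h5 : (2 : ℝ) ^ M.j j ≤ 2 ^ M.j m := pow_le_pow_right₀ (by norm_num) h1
    calc |M.s j - M.s m| ≤ |M.s j - S.u p.1 p.2| + |S.u p.1 p.2 - M.s m| := abs_sub_le _ _ _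
      _ ≤ S.A * S.w * 2 ^ M.j j + S.A * S.w * 2 ^ M.j m := by
          rw [abs_sub_comm (M.s j)]; exact add_le_add h3 h4
      _ ≤ S.A * S.w * 2 ^ M.j m + S.A * S.w * 2 ^ M.j m := by gcongr
      _ = _ := by ring

/-- **separation upwards** -/
theorem rel_sep (S : SysV κ) (hs : S.s = M.s) (hk : S.k = M.j) {z : ℝ × ℝ} {m m' : κ}
    (hR : 0 ≤ R) (hA0 : 0 ≤ A) (hQ : 4 * (S.A * S.w) + 2 * (R + A) < Q)
    (hA : ∀ j, ∀ z' ∈ E j, |u z' - s| ≤ A * 2 ^ j) (hA' : ∀ j, ∀ z' ∈ E' j, |u z' - s'| ≤ A * 2 ^ j)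
    (hPP : PP E E' s s' c0 Y Q z) (h : Rel u M R E s c0 Y z m) (h' : Rel u M R E' s' c0 Y z m')
    (j0 : κ) (h1 : S.Above j0 m) : ¬ S.Above j0 m' := by
  intro h2
  have hw := S.w_pos
  have hA1 := S.one_le_A
  obtain ⟨j, z1, h3, h4⟩ := h
  obtain ⟨j', z2, h3', h4'⟩ := h'
  have h5 := hPP j z1 j' z2 h3 h3'
  have h6 := slope_le (hA j z1 h3.1) h4
  have h6' := slope_le (hA' j' z2 h3'.1) h4'
  have h7 := above_slope S hs hk h1
  have h7' := above_slope S hs hk h2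
  have e1 : (2 : ℝ) ^ M.j m ≤ 2 ^ max j j' :=
    pow_le_pow_right₀ (by norm_num) (h4.1.trans (le_max_left _ _))
  have e2 : (2 : ℝ) ^ M.j m' ≤ 2 ^ max j j' :=
    pow_le_pow_right₀ (by norm_num) (h4'.1.trans (le_max_right _ _))
  have e3 : (2 : ℝ) ^ j ≤ 2 ^ max j j' := pow_le_pow_right₀ (by norm_num) (le_max_left _ _)
  have e4 : (2 : ℝ) ^ j' ≤ 2 ^ max j j' := pow_le_pow_right₀ (by norm_num) (le_max_right _ _)
  set T := (2 : ℝ) ^ max j j' with hT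
  have hT0 : 0 < T := by positivity
  have h8 : |s - s'| ≤ |s - M.s m| + |M.s m - M.s j0| + |M.s j0 - M.s m'| + |M.s m' - s'| := by
    have a1 := abs_sub_le s (M.s m) s'
    have a2 := abs_sub_le (M.s m) (M.s j0) s'
    have a3 := abs_sub_le (M.s j0) (M.s m') s'
    linarith
  rw [abs_sub_comm (M.s m) (M.s j0), abs_sub_comm (M.s m') s'] at h8
  have b1 : |s - M.s m| ≤ (R + A) * T := h6.trans (by gcongr)
  have b2 : |s' - M.s m'| ≤ (R + A) * T := h6'.trans (by gcongr)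
  have b3 : |M.s j0 - M.s m| ≤ 2 * (S.A * S.w) * T := h7.trans (by gcongr)
  have b4 : |M.s j0 - M.s m'| ≤ 2 * (S.A * S.w) * T := h7'.trans (by gcongr)
  have b5 : |s - s'| ≤ (4 * (S.A * S.w) + 2 * (R + A)) * T := by linarith
  nlinarith

end Vale.Agent.P112.H22.Cand
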