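import Vale.Agent.P112.H51.Arc

/-!
# The arc lemma for a small Lipschitz constant

`H51.arc` for a field whose Lipschitz constant in `y` is at most `1 / lam`: the condition
`8 l i ≤ η` becomes `8 l i ≤ η * lam`. (Scaling of `x`.)
-/

open MeasureTheory Set
open scoped ENNReal

noncomputable section

namespace Vale.Agent.P112.H22

open Vale.Agent.P112.H30

theorem volume_scale {lam : ℝ} (hl : 0 < lam) {X : Set (ℝ × ℝ)} (hX : MeasurableSet X) :
    volume {z : ℝ × ℝ | (lam * z.1, z.2) ∈ X} = ENNReal.ofReal lam⁻¹ * volume X := by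
  have hm : Measurable fun z : ℝ × ℝ => (lam * z.1, z.2) := by fun_prop
  have hX' : MeasurableSet {z : ℝ × ℝ | (lam * z.1, z.2) ∈ X} := hX.preimage hm
  rw [Measure.volume_eq_prod, Measure.prod_apply_symm hX', Measure.prod_apply_symm hX,
    ← lintegral_const_mul _ (measurable_measure_prodMk_right hX)]
  refine lintegral_congr fun y => ?_
  have : (fun x => (x, y)) ⁻¹' {z : ℝ × ℝ | (lam * z.1, z.2) ∈ X} =
      (lam * ·) ⁻¹' ((fun x => (x, y)) ⁻¹' X) := by
    ext x; simp
  rw [this, Real.volume_preimage_mul_left hl.ne', abs_of_pos (inv_pos.2 hl)]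

/-- **Arc lemma** for a field with Lipschitz constant `≤ 1 / lam`. -/
theorem arc_lip {ι : Type*} (F : Finset ι) (I : ι → Set ℝ) (l s c : ι → ℝ) (u : ℝ → ℝ → ℝ)
    (hu : Measurable (Function.uncurry u)) {lam : ℝ} (hlam0 : 0 < lam)
    (hLip : ∀ x y y', lam * |u x y - u x y'| ≤ |y - y'|)
    {w A d η s0 c0 : ℝ} {T : Set ℝ} (hT : MeasurableSet T) (hw : 0 < w) (hA : 0 ≤ A)
    (hη0 : 0 < η) (hη1 : η ≤ 1 / 4) (hd : 0 < d)
    (hImeas : ∀ i ∈ F, MeasurableSet (I i)) (hlam : ∀ i ∈ F, ∀ j ∈ F, Nd (I i) (I j))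
    (hdiam : ∀ i ∈ F, ∀ x ∈ I i, ∀ x' ∈ I i, |x - x'| ≤ l i)
    (hvol : ∀ i ∈ F, volume (I i) = ENNReal.ofReal (l i)) (hl0 : ∀ i ∈ F, 0 < l i)
    (hlη : ∀ i ∈ F, 8 * l i ≤ η * lam)
    (hsep : ∀ i ∈ F, 8 * ((A + 3) * w / l i) ≤ η * |s i - s0|)
    (hdense : ∀ i ∈ F, ENNReal.ofReal (d * (2 * w * l i)) ≤ volume
      {z : ℝ × ℝ | z.1 ∈ I i ∧ |z.2 - (c i + s i * z.1)| ≤ w ∧ |u z.1 z.2 - s i| ≤ A * w / l i})
    (K : ℕ) (hK0 : 0 < K) (hK : 6 ≤ d * K) (m : ℕ) :
    volume {x ∈ T | ¬ ∃ C : Finset ℝ, C.card < m ∧ ∀ i ∈ F, I i ⊆ T → x ∈ I i →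
      |(c i + s i * x) - (c0 + s0 * x)| ≤ 2 * w → ∃ c' ∈ C, |s i - c'| ≤ 4 * η * |c' - s0|} ≤
      (1 / 2) ^ (m / K) * volume T := by
  classical
  have hmul : Measurable fun x : ℝ => lam * x := by fun_prop
  have hsurj : ∀ J : Set ℝ, (lam * ·) '' ((lam * ·) ⁻¹' J) = J := fun J =>
    Set.image_preimage_eq _ fun y => ⟨y / lam, by field_simp⟩
  have key := H51.arc F (fun i => (lam * ·) ⁻¹' I i) (fun i => l i / lam)
    (fun i => lam * s i) c (fun x y => lam * u (lam * x) y)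
    (by
      have : Function.uncurry (fun x y => lam * u (lam * x) y) =
        fun z : ℝ × ℝ => lam * Function.uncurry u (lam * z.1, z.2) := by
        funext z; rfl
      rw [this]
      exact (hu.comp (by fun_prop)).const_mul lam)
    (fun x y y' => by
      rw [← mul_sub, abs_mul, abs_of_pos hlam0]
      exact hLip _ _ _)
    (w := w) (A := A) (d := d) (η := η) (s0 := lam * s0) (c0 := c0)
    (T := (lam * ·) ⁻¹' T) (hT.preimage hmul) hw hA hη0 hη1 hd
    (fun i hi => (hImeas i hi).preimage hmul)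
    (fun i hi j hj => by
      rcases hlam i hi j hj with h | h | h
      · exact Or.inl (Set.preimage_mono h)
      · exact Or.inr (Or.inl (Set.preimage_mono h))
      · exact Or.inr (Or.inr (h.preimage _)))
    (fun i hi x hx x' hx' => by
      have h := hdiam i hi _ hx _ hx'
      rw [← mul_sub, abs_mul, abs_of_pos hlam0] at h
      rw [le_div_iff₀ hlam0]; linarith)
    (fun i hi => by
      rw [Real.volume_preimage_mul_left hlam0.ne', abs_of_pos (inv_pos.2 hlam0), hvol i hi,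
        ← ENNReal.ofReal_mul (inv_pos.2 hlam0).le]
      congr 1
      field_simp)
    (fun i hi => div_pos (hl0 i hi) hlam0)
    (fun i hi => by
      have := hlη i hi
      rw [mul_div_assoc', div_le_iff₀ hlam0]; exact this)
    (fun i hi => by
      have h := hsep i hi
      have hl := hl0 i hi
      rw [← mul_sub, abs_mul, abs_of_pos hlam0]
      calc 8 * ((A + 3) * w / (l i / lam)) = lam * (8 * ((A + 3) * w / l i)) := by
            field_simp
        _ ≤ lam * (η * |s i - s0|) := by gcongr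
        _ = η * (lam * |s i - s0|) := by ring)
    (fun i hi => by
      have h := hdense i hi
      have hl := hl0 i hi
      have hXm : MeasurableSet {z : ℝ × ℝ | z.1 ∈ I i ∧ |z.2 - (c i + s i * z.1)| ≤ w ∧
          |u z.1 z.2 - s i| ≤ A * w / l i} := by
        have h1 : MeasurableSet {z : ℝ × ℝ | z.1 ∈ I i} := measurable_fst (hImeas i hi)
        have h2 : MeasurableSet {z : ℝ × ℝ | |z.2 - (c i + s i * z.1)| ≤ w} :=
          measurableSet_le (by fun_prop) measurable_const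
        have h3 : MeasurableSet {z : ℝ × ℝ | |u z.1 z.2 - s i| ≤ A * w / l i} :=
          measurableSet_le ((hu.sub measurable_const).abs) measurable_const
        exact h1.inter (h2.inter h3)
      have e : {z : ℝ × ℝ | z.1 ∈ (lam * ·) ⁻¹' I i ∧ |z.2 - (c i + lam * s i * z.1)| ≤ w ∧
          |lam * u (lam * z.1) z.2 - lam * s i| ≤ A * w / (l i / lam)} =
          {z : ℝ × ℝ | (lam * z.1, z.2) ∈ {z : ℝ × ℝ | z.1 ∈ I i ∧
            |z.2 - (c i + s i * z.1)| ≤ w ∧ |u z.1 z.2 - s i| ≤ A * w / l i}} := by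
        ext z
        simp only [mem_ofPred_eq, mem_preimage]
        have e1 : lam * s i * z.1 = s i * (lam * z.1) := by ring
        have e2 : |lam * u (lam * z.1) z.2 - lam * s i| = lam * |u (lam * z.1) z.2 - s i| := by
          rw [← mul_sub, abs_mul, abs_of_pos hlam0]
        have e3 : A * w / (l i / lam) = lam * (A * w / l i) := by field_simp
        rw [e1, e2, e3, mul_le_mul_iff_right₀ hlam0]
      rw [e, volume_scale hlam0 hXm]
      calc ENNReal.ofReal (d * (2 * w * (l i / lam)))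
          = ENNReal.ofReal lam⁻¹ * ENNReal.ofReal (d * (2 * w * l i)) := by
            rw [← ENNReal.ofReal_mul (inv_pos.2 hlam0).le]
            congr 1
            field_simp
        _ ≤ _ := by gcongr)
    K hK0 hK m
  -- back to the original variables
  set Bd : Set ℝ := {x ∈ T | ¬ ∃ C : Finset ℝ, C.card < m ∧ ∀ i ∈ F, I i ⊆ T → x ∈ I i →
      |(c i + s i * x) - (c0 + s0 * x)| ≤ 2 * w → ∃ c' ∈ C, |s i - c'| ≤ 4 * η * |c' - s0|}
    with hBd
  have hsub : (lam * ·) ⁻¹' Bd ⊆ {x ∈ (lam * ·) ⁻¹' T | ¬ ∃ C : Finset ℝ, C.card < m ∧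
      ∀ i ∈ F, (lam * ·) ⁻¹' I i ⊆ (lam * ·) ⁻¹' T → x ∈ (lam * ·) ⁻¹' I i →
      |(c i + lam * s i * x) - (c0 + lam * s0 * x)| ≤ 2 * w →
      ∃ c' ∈ C, |lam * s i - c'| ≤ 4 * η * |c' - lam * s0|} := by
    intro x hx
    refine ⟨hx.1, fun hC => hx.2 ?_⟩
    obtain ⟨C, hC1, hC2⟩ := hC
    refine ⟨C.image fun c => c / lam, lt_of_le_of_lt Finset.card_image_le hC1,
      fun i hi hIT hxI hcr => ?_⟩
    obtain ⟨c', hc', h⟩ := hC2 i hi (Set.preimage_mono hIT) hxI (by
      have e1 : lam * s i * x = s i * (lam * x) := by ring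
      have e2 : lam * s0 * x = s0 * (lam * x) := by ring
      rw [e1, e2]; exact hcr)
    refine ⟨c' / lam, Finset.mem_image_of_mem _ hc', ?_⟩
    have e1 : |lam * s i - c'| = lam * |s i - c' / lam| := by
      rw [← abs_of_pos hlam0, ← abs_mul, abs_of_pos hlam0]
      congr 1
      field_simp
    have e2 : |c' - lam * s0| = lam * |c' / lam - s0| := by
      rw [← abs_of_pos hlam0, ← abs_mul, abs_of_pos hlam0]
      congr 1
      field_simp
    rw [e1, e2] at h
    have h2 : lam * |s i - c' / lam| ≤ lam * (4 * η * |c' / lam - s0|) := by linarith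
    exact le_of_mul_le_mul_left h2 hlam0
  have h1 : volume ((lam * ·) ⁻¹' Bd) ≤ (1 / 2) ^ (m / K) * volume ((lam * ·) ⁻¹' T) :=
    (measure_mono hsub).trans key
  rw [Real.volume_preimage_mul_left hlam0.ne', Real.volume_preimage_mul_left hlam0.ne',
    abs_of_pos (inv_pos.2 hlam0), ← mul_assoc, mul_comm ((1 / 2 : ℝ≥0∞) ^ (m / K)),
    mul_assoc] at h1
  have h0 : ENNReal.ofReal lam⁻¹ ≠ 0 := by
    simpa using hlam0
  exact (ENNReal.mul_le_mul_iff_right h0 ENNReal.ofReal_ne_top).1 h1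

end Vale.Agent.P112.H22
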