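import Vale.Agent.P112.H295.Sparse
import Vale.Agent.P112.H22.ArcL
import Vale.Agent.P112.H646.Defs

/-!
# P112, chapter (G): the arc hypothesis for tree tops, block (u5) of `[H-USE]`

For a system `S` of dense tubes (H295 `SysV`), `Exc` is the exceptional set of tube `t`: the points
`z` of the dilated tube at which the slopes of the shorter tubes through `z` which are separated
from `t` are not covered by fewer than `m` relative arcs. The Lipschitz constant `S.ε` of the field
is at most `1 / lam`; only tubes with `8 l ≤ η lam` are considered (all tubes if `8 S.ε ≤ η`).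

* `exc_meas`, `exc_vol` : `|Exc t| ≤ 2 ^ (-(m / K)) * 2 B w l_t` for `3 B ≤ δ K`;
* `bad_vol` : the points where at least `c` tubes are exceptional;
* `arc_of_rep` : the hypothesis `Arc` of the heart for tops with nonexceptional representatives.
-/

open MeasureTheory Set
open scoped ENNReal

set_option linter.dupNamespace false

noncomputable section

namespace Vale.Agent.P112.H22.Exc

open Vale.Agent.P112.H310 Vale.Agent.P112.H295

/-! ## 1. measurability -/

open Classical in
theorem meas_fin {α ι : Type*} [MeasurableSpace α] [Fintype ι] (Y : ι → Set α)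
    (hY : ∀ i, MeasurableSet (Y i)) (p : Finset ι → Prop) :
    MeasurableSet {z | p (Finset.univ.filter fun i => z ∈ Y i)} := by
  have : {z | p (Finset.univ.filter fun i => z ∈ Y i)} =
      ⋃ X ∈ (Finset.univ.filter fun X : Finset ι => p X),
        {z | (Finset.univ.filter fun i => z ∈ Y i) = X} := by
    ext z
    simp only [mem_ofPred_eq, mem_iUnion, Finset.mem_filter, Finset.mem_univ, true_and,
      exists_prop]
    constructor
    · intro h
      exact ⟨_, h, rfl⟩
    · rintro ⟨X, hX, h⟩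
      rw [h]; exact hX
  rw [this]
  refine Finset.measurableSet_biUnion _ fun X _ => ?_
  have h2 : {z | (Finset.univ.filter fun i => z ∈ Y i) = X} =
      ⋂ i, {z | z ∈ Y i ↔ i ∈ X} := by
    ext z
    simp only [mem_ofPred_eq, mem_iInter, Finset.ext_iff, Finset.mem_filter, Finset.mem_univ,
      true_and]
  rw [h2]
  refine MeasurableSet.iInter fun i => ?_
  by_cases hi : i ∈ X
  · simp only [hi, iff_true]; exact hY i
  · simp only [hi, iff_false]; exact (hY i).compl

/-- covering by fewer than `m` relative arcs around `s0` -/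
def Cov {ι : Type*} (s : ι → ℝ) (η s0 : ℝ) (m : ℕ) (X : Finset ι) : Prop :=
  ∃ C : Finset ℝ, C.card < m ∧ ∀ i ∈ X, ∃ c' ∈ C, |s i - c'| ≤ 4 * η * |c' - s0|

theorem Cov.mono {ι : Type*} {s : ι → ℝ} {η s0 : ℝ} {m : ℕ} {X Y : Finset ι}
    (h : Cov s η s0 m Y) (hXY : X ⊆ Y) : Cov s η s0 m X := by
  obtain ⟨C, hC, h⟩ := h
  exact ⟨C, hC, fun i hi => h i (hXY hi)⟩

/-! ## 2. the exceptional sets -/

variable {ι : Type*} [Fintype ι] (S : SysV ι)

/-- tube `i` is shorter than tube `t` and separated from it -/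
def Sepa (B η lam : ℝ) (t i : ι) : Prop :=
  S.I i ⊆ S.I t ∧ 8 * S.l i ≤ η * lam ∧ 8 * ((S.A + 3 * B / 2) * S.w / S.l i) ≤ η * |S.s i - S.s t|

/-- the dilated tube `i`, if it is shorter than `t` and separated from `t` -/
def Yr (B η lam : ℝ) (t i : ι) : Set (ℝ × ℝ) :=
  {z : ℝ × ℝ | Sepa S B η lam t i ∧ z ∈ Reg (S.I i) (S.line i) (B * S.w)}

open Classical in
/-- the tubes through `z` which are shorter than `t` and separated from `t` -/
def Cr (B η lam : ℝ) (t : ι) (z : ℝ × ℝ) : Finset ι :=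
  Finset.univ.filter fun i => z ∈ Yr S B η lam t i

/-- the exceptional set of tube `t` -/
def Exc (B η lam : ℝ) (m : ℕ) (t : ι) : Set (ℝ × ℝ) :=
  {z | z ∈ Reg (S.I t) (S.line t) (B * S.w) ∧ ¬ Cov S.s η (S.s t) m (Cr S B η lam t z)}

theorem exc_meas (B η lam : ℝ) (m : ℕ) (t : ι) : MeasurableSet (Exc S B η lam m t) := by
  have h1 : MeasurableSet (Reg (S.I t) (S.line t) (B * S.w)) :=
    measurableSet_Reg (measurableSet_D _ _) (S.line_meas t) _
  have h2 : MeasurableSet {z | ¬ Cov S.s η (S.s t) m (Cr S B η lam t z)} := by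
    unfold Cr
    refine meas_fin (Yr S B η lam t) (fun i => ?_) (fun X => ¬ Cov S.s η (S.s t) m X)
    unfold Yr
    by_cases h : Sepa S B η lam t i
    · simp only [h, true_and]
      exact measurableSet_Reg (measurableSet_D _ _) (S.line_meas i) _
    · simp only [h, false_and]
      exact MeasurableSet.empty
  exact h1.inter h2

/-- one line -/
theorem exc_line {B η lam : ℝ} (hB : 2 ≤ B) (hη0 : 0 < η) (hη1 : η ≤ 1 / 4)
    (hlam0 : 0 < lam) (hlam : lam * S.ε ≤ 1) {K : ℕ}
    (hK0 : 0 < K) (hK : 3 * B ≤ S.δ * K) (m : ℕ) (t : ι) (v : ℝ) :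
    volume {x | (x, v + S.line t x) ∈ Exc S B η lam m t} ≤
      (1 / 2) ^ (m / K) * volume (S.I t) := by
  classical
  have hw := S.w_pos
  have hA := S.one_le_A
  have hδ := S.δ_pos
  set F : Finset ι := Finset.univ.filter fun i => Sepa S B η lam t i with hF
  have hFm : ∀ i ∈ F, Sepa S B η lam t i := fun i hi => (Finset.mem_filter.1 hi).2
  have key := arc_lip F S.I S.l S.s S.b S.u S.u_meas hlam0
    (fun x y y' => by
      have h1 := S.u_lip x y y'
      have h2 := abs_nonneg (y - y')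
      calc lam * |S.u x y - S.u x y'| ≤ lam * (S.ε * |y - y'|) := by gcongr
        _ = lam * S.ε * |y - y'| := by ring
        _ ≤ 1 * |y - y'| := by gcongr
        _ = |y - y'| := one_mul _)
    (w := B * S.w / 2) (A := 2 * S.A / B) (d := 2 * S.δ / B) (η := η) (s0 := S.s t)
    (c0 := v + S.b t) (T := S.I t) (measurableSet_D _ _) (by positivity) (by positivity)
    hη0 hη1 (by positivity) (fun i _ => measurableSet_D _ _)
    (fun i _ j _ => ?_) (fun i _ x hx x' hx' => abs_sub_le_of_mem_D hx hx')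
    (fun i _ => volume_D _ _) (fun i _ => S.l_pos i) (fun i hi => (hFm i hi).2.1)
    (fun i hi => ?_) (fun i hi => ?_) K hK0 ?_ m
  · refine (measure_mono ?_).trans key
    intro x hx
    obtain ⟨hx1, hx2⟩ := hx
    refine ⟨hx1.1, fun hC => hx2 ?_⟩
    obtain ⟨C, hC1, hC2⟩ := hC
    refine ⟨C, hC1, fun i hi => ?_⟩
    unfold Cr at hi
    rw [Finset.mem_filter] at hi
    obtain ⟨_, h1, h2⟩ := hi
    refine hC2 i (Finset.mem_filter.2 ⟨Finset.mem_univ _, h1⟩) h1.1 h2.1 ?_
    have h3 : |(v + (S.b t + S.s t * x)) - (S.b i + S.s i * x)| ≤ B * S.w := h2.2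
    have : (S.b i + S.s i * x) - (v + S.b t + S.s t * x) =
      -((v + (S.b t + S.s t * x)) - (S.b i + S.s i * x)) := by ring
    rw [this, abs_neg]
    linarith
  · -- nested
    rcases le_total (S.k i) (S.k j) with h | h
    · by_cases hd : Disjoint (S.I i) (S.I j)
      · exact Or.inr (Or.inr hd)
      · rw [Set.not_disjoint_iff] at hd
        obtain ⟨x, hx, hx'⟩ := hd
        exact Or.inr (Or.inl (D_subset_of_mem h hx' hx))
    · by_cases hd : Disjoint (S.I i) (S.I j)
      · exact Or.inr (Or.inr hd)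
      · rw [Set.not_disjoint_iff] at hd
        obtain ⟨x, hx, hx'⟩ := hd
        exact Or.inl (D_subset_of_mem h hx hx')
  · -- separation
    have h := (hFm i hi).2.2
    have e : (2 * S.A / B + 3) * (B * S.w / 2) / S.l i = (S.A + 3 * B / 2) * S.w / S.l i := by
      have hB0 : B ≠ 0 := by linarith
      congr 1
      field_simp
    rw [e]; exact h
  · -- density
    have hd := S.V_dens i
    have hr := S.vr_R i
    unfold SysV.R SysV.I SysV.line at hr
    rw [hr] at hd
    have hVle : S.V i ⊆ {z : ℝ × ℝ | z.1 ∈ S.I i ∧ |z.2 - (S.b i + S.s i * z.1)| ≤ B * S.w / 2 ∧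
        |S.u z.1 z.2 - S.s i| ≤ 2 * S.A / B * (B * S.w / 2) / S.l i} := by
      intro z hz
      have h1 := S.V_sub i hz
      have h2 := S.V_slope i z hz
      refine ⟨h1.1, h1.2.trans (by nlinarith), ?_⟩
      have e : 2 * S.A / B * (B * S.w / 2) = S.A * S.w := by
        have hB0 : B ≠ 0 := by linarith
        field_simp
      rw [e]; exact h2
    refine le_trans ?_ (measure_mono hVle)
    rw [← ENNReal.ofReal_toReal (S.V_fin i)]
    apply ENNReal.ofReal_le_ofReal
    refine le_trans (le_of_eq ?_) hd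
    have hB0 : B ≠ 0 := by linarith
    field_simp
  · -- K
    have hB0 : 0 < B := by linarith
    rw [div_mul_eq_mul_div, le_div_iff₀ hB0]
    nlinarith

theorem exc_vol {B η lam : ℝ} (hB : 2 ≤ B) (hη0 : 0 < η) (hη1 : η ≤ 1 / 4)
    (hlam0 : 0 < lam) (hlam : lam * S.ε ≤ 1) {K : ℕ}
    (hK0 : 0 < K) (hK : 3 * B ≤ S.δ * K) (m : ℕ) (t : ι) :
    volume (Exc S B η lam m t) ≤
      (1 / 2) ^ (m / K) * ENNReal.ofReal (S.l t * (2 * (B * S.w))) := by
  classical
  have hw := S.w_pos
  have hm := exc_meas S B η lam m t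
  have mline : Measurable (S.line t) := S.line_meas t
  have hm2 : MeasurableSet {p : ℝ × ℝ | (p.1, p.2 + S.line t p.1) ∈ Exc S B η lam m t} := by
    refine hm.preimage ?_
    exact measurable_fst.prodMk (measurable_snd.add (mline.comp measurable_fst))
  have e1 : volume (Exc S B η lam m t) =
      volume {p : ℝ × ℝ | (p.1, p.2 + S.line t p.1) ∈ Exc S B η lam m t} := by
    rw [Measure.volume_eq_prod, Measure.prod_apply hm, Measure.prod_apply hm2]
    refine lintegral_congr fun x => ?_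
    have : Prod.mk x ⁻¹' {p : ℝ × ℝ | (p.1, p.2 + S.line t p.1) ∈ Exc S B η lam m t} =
      (fun y => y + S.line t x) ⁻¹' (Prod.mk x ⁻¹' Exc S B η lam m t) := by
      ext y; simp
    rw [this, measure_preimage_add_right]
  rw [e1, Measure.volume_eq_prod, Measure.prod_apply_symm hm2]
  calc ∫⁻ v, volume ((fun x => (x, v)) ⁻¹'
        {p : ℝ × ℝ | (p.1, p.2 + S.line t p.1) ∈ Exc S B η lam m t})
      ≤ ∫⁻ v, (Icc (-(B * S.w)) (B * S.w)).indicator
          (fun _ => (1 / 2) ^ (m / K) * volume (S.I t)) v := by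
        refine lintegral_mono fun v => ?_
        by_cases hv : v ∈ Icc (-(B * S.w)) (B * S.w)
        · rw [indicator_of_mem hv]
          exact exc_line S hB hη0 hη1 hlam0 hlam hK0 hK m t v
        · rw [indicator_of_notMem hv]
          refine le_of_eq ?_
          have : ((fun x => (x, v)) ⁻¹'
            {p : ℝ × ℝ | (p.1, p.2 + S.line t p.1) ∈ Exc S B η lam m t}) = ∅ := by
            ext x
            simp only [mem_preimage, mem_ofPred_eq, mem_empty_iff_false, iff_false]
            intro h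
            apply hv
            have h2 := h.1.2
            simp only [add_sub_cancel_right] at h2
            exact abs_le.1 h2
          rw [this, measure_empty]
    _ = (1 / 2) ^ (m / K) * volume (S.I t) * ENNReal.ofReal (2 * (B * S.w)) := by
        rw [lintegral_indicator measurableSet_Icc, setLIntegral_const, Real.volume_Icc]
        congr 2; ring
    _ = _ := by
        have : volume (S.I t) = ENNReal.ofReal (S.l t) := volume_D _ _
        rw [this, mul_assoc, ← ENNReal.ofReal_mul (S.l_pos t).le]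

/-! ## 3. the bad points -/

/-- **bad points**: at least `c` tubes are exceptional. Outside, every set of at least `c` tubes
contains a nonexceptional one. -/
theorem bad_vol {B η lam : ℝ} (hB : 2 ≤ B) (hη0 : 0 < η) (hη1 : η ≤ 1 / 4)
    (hlam0 : 0 < lam) (hlam : lam * S.ε ≤ 1) {K : ℕ}
    (hK0 : 0 < K) (hK : 3 * B ≤ S.δ * K) (m c : ℕ) :
    (c : ℝ≥0∞) * volume {z | ∃ g : Finset ι, c ≤ g.card ∧ ∀ t ∈ g, z ∈ Exc S B η lam m t} ≤
      (1 / 2) ^ (m / K) * ENNReal.ofReal (B * ∑ t, S.l t * (2 * S.w)) := by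
  have h := averaging volume Finset.univ (fun t => Exc S B η lam m t)
    (fun t _ => exc_meas S B η lam m t)
    {z | ∃ g : Finset ι, c ≤ g.card ∧ ∀ t ∈ g, z ∈ Exc S B η lam m t} c
    (fun z hz => by
      obtain ⟨g, hg, h⟩ := hz
      exact ⟨g, Finset.subset_univ _, hg, h⟩)
  refine h.trans ?_
  have hw := S.w_pos
  rw [Finset.mul_sum, ENNReal.ofReal_sum_of_nonneg fun t _ => by
    have := S.l_pos t; positivity, Finset.mul_sum]
  refine Finset.sum_le_sum fun t _ => (exc_vol S hB hη0 hη1 hlam0 hlam hK0 hK m t).trans (le_of_eq ?_)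
  congr 2; ring

theorem exists_good {B η lam : ℝ} {m c : ℕ} {z : ℝ × ℝ}
    (hz : z ∉ {z | ∃ g : Finset ι, c ≤ g.card ∧ ∀ t ∈ g, z ∈ Exc S B η lam m t}) {g : Finset ι}
    (hg : c ≤ g.card) : ∃ t ∈ g, z ∉ Exc S B η lam m t := by
  by_contra h
  push Not at h
  exact hz ⟨g, hg, h⟩

/-! ## 4. the arc hypothesis -/

/-- **(u5)** : tops `a ∈ P` with slopes `σ a` and nonexceptional representatives `t a`. -/
theorem arc_of_rep {α : Type} (P : Finset α) (σ : α → ℝ) (t : α → ι) {B η lam e H1 : ℝ} {m : ℕ}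
    {z : ℝ × ℝ} (hη0 : 0 < η) (he : 0 ≤ e) (hH1 : 1 ≤ H1)
    (heH : (4 * e + 8 * η) * H1 ≤ 1)
    (hz : ∀ a ∈ P, z ∈ Reg (S.I (t a)) (S.line (t a)) (B * S.w))
    (hgood : ∀ a ∈ P, z ∉ Exc S B η lam m (t a))
    (hlen : ∀ a ∈ P, 8 * S.l (t a) ≤ η * lam)
    (hclose : ∀ a ∈ P, ∀ b ∈ P, a ≠ b → |σ a - S.s (t a)| ≤ e * |σ a - σ b|)
    (hsep : ∀ a ∈ P, ∀ b ∈ P, a ≠ b →
      16 * ((S.A + 3 * B / 2) * S.w / S.l (t a)) ≤ η * |σ a - σ b|) :
    H646.Arc m H1 σ P := by
  classical
  have heH0 : 4 * e + 8 * η ≤ 1 := by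
    have : 0 < 4 * e + 8 * η := by positivity
    nlinarith
  intro P' hP' hcard
  have hne : P'.Nonempty := by
    rw [← Finset.card_pos]; omega
  obtain ⟨k, hk, hmin⟩ := Finset.exists_min_image P' (fun a => S.k (t a)) hne
  refine ⟨k, hk, ?_⟩
  have hkP := hP' hk
  have hcov : Cov S.s η (S.s (t k)) m (Cr S B η lam (t k) z) := by
    by_contra h
    exact hgood k hkP ⟨hz k hkP, h⟩
  obtain ⟨C, hC, hcov⟩ := hcov
  -- enumeration of `C`
  have hm : 0 < m := by omega
  obtain ⟨c, hc⟩ : ∃ c : Fin m → ℝ, ∀ x ∈ C, ∃ r, c r = x := by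
    let f := C.equivFin
    refine ⟨fun r => if h : (r : ℕ) < C.card then (f.symm ⟨r, h⟩ : ℝ) else 0, fun x hx => ?_⟩
    refine ⟨⟨f ⟨x, hx⟩, (f ⟨x, hx⟩).2.trans hC⟩, ?_⟩
    simp [f]
  refine ⟨c, fun a ha hak => ?_⟩
  have haP := hP' ha
  have hD := abs_nonneg (σ a - σ k)
  have ha1 := hclose a haP k hkP hak
  have hk1 := hclose k hkP a haP hak.symm
  rw [abs_sub_comm (σ k) (σ a)] at hk1
  have hsepa : Sepa S B η lam (t k) (t a) := by
    refine ⟨D_subset_of_mem (hmin a ha) (hz a haP).1 (hz k hkP).1, hlen a haP, ?_⟩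
    have h1 := hsep a haP k hkP hak
    have h2 : |σ a - σ k| ≤ |σ a - S.s (t a)| + |S.s (t a) - S.s (t k)| + |σ k - S.s (t k)| := by
      have h4 : σ a - σ k = (σ a - S.s (t a)) + (S.s (t a) - S.s (t k)) + -(σ k - S.s (t k)) := by
        ring
      calc |σ a - σ k| = |(σ a - S.s (t a)) + (S.s (t a) - S.s (t k)) + -(σ k - S.s (t k))| := by
            rw [← h4]
        _ ≤ |(σ a - S.s (t a)) + (S.s (t a) - S.s (t k))| + |-(σ k - S.s (t k))| := abs_add_le _ _
        _ ≤ |σ a - S.s (t a)| + |S.s (t a) - S.s (t k)| + |σ k - S.s (t k)| := by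
            rw [abs_neg]
            gcongr
            exact abs_add_le _ _
    have h3 : |σ a - σ k| ≤ 2 * |S.s (t a) - S.s (t k)| := by nlinarith
    nlinarith
  have hCr : t a ∈ Cr S B η lam (t k) z := by
    unfold Cr
    rw [Finset.mem_filter]
    exact ⟨Finset.mem_univ _, hsepa, hz a haP⟩
  obtain ⟨c', hc', hcc⟩ := hcov (t a) hCr
  obtain ⟨r, hr⟩ := hc c' hc'
  refine ⟨r, ?_⟩
  rw [hr, le_div_iff₀ (by linarith)]
  have hX := abs_nonneg (σ a - c')
  have hY := abs_nonneg (c' - σ k)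
  have h1 : |σ a - c'| ≤ |σ a - S.s (t a)| + |S.s (t a) - c'| := abs_sub_le _ _ _
  have h2 : |c' - S.s (t k)| ≤ |c' - σ k| + |σ k - S.s (t k)| := abs_sub_le _ _ _
  have h3 : |σ a - σ k| ≤ |σ a - c'| + |c' - σ k| := abs_sub_le _ _ _
  have h4 : |σ a - c'| ≤ e * |σ a - σ k| + 4 * η * (|c' - σ k| + e * |σ a - σ k|) := by
    have : 4 * η * |c' - S.s (t k)| ≤ 4 * η * (|c' - σ k| + e * |σ a - σ k|) := by
      gcongr
      exact h2.trans (by gcongr)
    linarith
  have h5 : |σ a - c'| ≤ 2 * (2 * e + 4 * η) * |c' - σ k| := by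
    have h6 : 4 * η * (e * |σ a - σ k|) ≤ e * |σ a - σ k| := by
      have : 4 * η ≤ 1 := by linarith
      have h7 : 0 ≤ e * |σ a - σ k| := by positivity
      nlinarith
    have h7 : e * |σ a - σ k| ≤ e * (|σ a - c'| + |c' - σ k|) := by gcongr
    nlinarith
  calc |σ a - c'| * H1 ≤ 2 * (2 * e + 4 * η) * |c' - σ k| * H1 := by gcongr
    _ = ((4 * e + 8 * η) * H1) * |c' - σ k| := by ring
    _ ≤ 1 * |c' - σ k| := by gcongr
    _ = |c' - σ k| := one_mul _

end Vale.Agent.P112.H22.Exc
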