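import Vale.Agent.P112.H22.GArcs
import Vale.Agent.P112.H597.Cands

/-!
# `[GAIN-ARC]` closed: `stArcs : H646.Gain.StArcs`
-/

open MeasureTheory Set
open scoped ENNReal

noncomputable section

namespace Vale.Agent.P112.H22.GArcs

open Vale.Agent.P112.T Vale.Agent.P112.F30 Vale.Agent.P112.H22.Cand
open Vale.Agent.P112.H22.TopSys Vale.Agent.P112.H646.Gain

theorem candsP : CandsP := by
  obtain ⟨C, hC, h⟩ := H597.Gn.tops
  refine ⟨C, hC, ?_⟩
  intro u hu n ν E0 hE0 hE0b S Q H0 θ r hS hQ hH0 hSH hθ0 hθ1 hr ι _ s E hE hEP G N0 K _ X hX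
  obtain ⟨κ, _, M, h1, h2, h3⟩ := h u hu E0 hE0 hE0b n ν
  refine ⟨κ, inferInstance, M, h2, h1, fun a z => ⟨fun i hi => ?_, fun i _ i' _ hii => ?_⟩⟩
  · refine ⟨H597.Gn.cd u M (C * 2 ^ ν) E s H0 i z, fun t ht => H597.Gn.mem_cd.1 ht, ?_⟩
    have h4 := H597.Gn.cd_card hE hX hS hSH hθ1 hr (by positivity) (h3 ι E hEP) a z hi
    refine h4.trans (le_of_eq ?_)
    ring
  · exact H597.Gn.pp hE (by linarith) hQ hii z

/-- **`[ARC]`**, literal -/
theorem stArcs : H646.Gain.StArcs := stArcs_of candsP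

end Vale.Agent.P112.H22.GArcs
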