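import Mathlib

/-!
# Greedy colouring of a degenerate relation
-/

namespace Vale.Agent.P112.H22

/-- Greedy colouring: if every vertex has at most `C` neighbours that are not shorter than itself
then `C + 1` colours suffice. -/
theorem exists_coloring {α : Type*} (R : α → α → Prop) (hsymm : ∀ a b, R a b → R b a)
    (lev : α → ℕ) (C : ℕ) (U : Finset α)
    (hdeg : ∀ a ∈ U, ∀ S : Finset α, S ⊆ U → (∀ b ∈ S, b ≠ a ∧ R a b ∧ lev b ≤ lev a) →
      S.card ≤ C) :
    ∃ col : α → Fin (C + 1), ∀ a ∈ U, ∀ b ∈ U, a ≠ b → R a b → col a ≠ col b := by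
  classical
  revert hdeg
  refine Finset.induction_on_max_value lev U ?_ ?_
  · intro _
    exact ⟨fun _ => 0, by simp⟩
  · intro a s ha hmax ih hdeg
    obtain ⟨col, hcol⟩ := ih (fun x hx S hS hS' =>
      hdeg x (Finset.mem_insert_of_mem hx) S (hS.trans (Finset.subset_insert _ _)) hS')
    set N := s.filter (fun b => R a b) with hN
    have hcard : N.card ≤ C := by
      refine hdeg a (Finset.mem_insert_self _ _) N ?_ ?_
      · exact (Finset.filter_subset _ _).trans (Finset.subset_insert _ _)
      · intro b hb
        rw [hN, Finset.mem_filter] at hb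
        refine ⟨?_, hb.2, hmax b hb.1⟩
        rintro rfl
        exact ha hb.1
    have hex : ∃ c : Fin (C + 1), c ∉ N.image col := by
      by_contra hcon
      push Not at hcon
      have h1 : (Finset.univ : Finset (Fin (C + 1))) ⊆ N.image col := fun c _ => hcon c
      have h2 := Finset.card_le_card h1
      rw [Finset.card_univ, Fintype.card_fin] at h2
      have h3 := Finset.card_image_le (s := N) (f := col)
      omega
    obtain ⟨c, hc⟩ := hex
    refine ⟨fun x => if x = a then c else col x, ?_⟩
    have key : ∀ b ∈ s, R a b → col b ≠ c := by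
      intro b hb hR hbc
      exact hc (Finset.mem_image.mpr ⟨b, by rw [hN, Finset.mem_filter]; exact ⟨hb, hR⟩, hbc⟩)
    intro x hx y hy hxy hR
    rw [Finset.mem_insert] at hx hy
    by_cases hxa : x = a
    · have hya : y ≠ a := fun h => hxy (hxa.trans h.symm)
      have hys : y ∈ s := hy.resolve_left hya
      simp only [hxa, hya, if_true, if_false]
      rw [hxa] at hR
      exact (key y hys hR).symm
    · have hxs : x ∈ s := hx.resolve_left hxa
      by_cases hya : y = a
      · simp only [hxa, hya, if_true, if_false]
        rw [hya] at hR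
        exact key x hxs (hsymm _ _ hR)
      · have hys : y ∈ s := hy.resolve_left hya
        simp only [hxa, hya, if_false]
        exact hcol x hxs y hys hxy hR

end Vale.Agent.P112.H22
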