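import Mathlib

/-!
Improved Young inequality for approximate additive quadruples of separated reals
(P112, block [IY]).
-/

namespace Vale.Agent.P112.H22

open Finset Real

set_option linter.unusedSectionVars false
set_option linter.unusedVariables false

variable {ι : Type*} [Fintype ι]

/-- Separated frequencies: `3ρ`-separated and pairwise distinct. -/
structure Sep (s : ι → ℝ) (ρ : ℝ) : Prop where
  pos : 0 ≤ ρ
  sep : ∀ i j, i ≠ j → 3 * ρ ≤ |s i - s j|
  inj : ∀ i j, i ≠ j → s i ≠ s j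

/-- Approximate additive relation. -/
def Rel (s : ι → ℝ) (ρ : ℝ) (i j k l : ι) : Prop := |s i + s j - s k - s l| ≤ ρ

noncomputable instance (s : ι → ℝ) (ρ : ℝ) (i j k l : ι) : Decidable (Rel s ρ i j k l) :=
  inferInstanceAs (Decidable (|s i + s j - s k - s l| ≤ ρ))

variable {s : ι → ℝ} {ρ : ℝ}

theorem Sep.eq_of (h : Sep s ρ) {l l' : ι} (hl : |s l - s l'| ≤ 2 * ρ) : l = l' := by
  by_contra hne
  have h1 := h.sep l l' hne
  have h2 := h.inj l l' hne
  have h3 := h.pos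
  have h4 : ρ = 0 := by linarith
  rw [h4] at hl
  have h5 : |s l - s l'| = 0 := le_antisymm (by linarith) (abs_nonneg _)
  exact h2 (by linarith [abs_eq_zero.mp h5])

theorem Rel.symm {i j k l : ι} (h : Rel s ρ i j k l) : Rel s ρ k l i j := by
  unfold Rel at *
  rw [← abs_neg]; convert h using 2; ring

theorem Rel.swap₁ {i j k l : ι} (h : Rel s ρ i j k l) : Rel s ρ j i k l := by
  unfold Rel at *
  convert h using 2; ring

theorem Rel.swap₂ {i j k l : ι} (h : Rel s ρ i j k l) : Rel s ρ i j l k := by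
  unfold Rel at *
  convert h using 2; ring

theorem Rel.det₄ (hs : Sep s ρ) {i j k l l' : ι} (h : Rel s ρ i j k l) (h' : Rel s ρ i j k l') :
    l = l' := by
  apply hs.eq_of
  unfold Rel at *
  have : s l - s l' = (s i + s j - s k - s l') - (s i + s j - s k - s l) := by ring
  rw [this]
  exact (abs_sub _ _).trans (by linarith)

theorem Rel.det₃ (hs : Sep s ρ) {i j k k' l : ι} (h : Rel s ρ i j k l) (h' : Rel s ρ i j k' l) :
    k = k' := Rel.det₄ hs h.swap₂ h'.swap₂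

theorem Rel.det₂ (hs : Sep s ρ) {i j j' k l : ι} (h : Rel s ρ i j k l) (h' : Rel s ρ i j' k l) :
    j = j' := Rel.det₄ hs h.symm h'.symm

theorem Rel.refl₀ (hs : Sep s ρ) (i j : ι) : Rel s ρ i j i j := by
  unfold Rel
  have : s i + s j - s i - s j = 0 := by ring
  rw [this, abs_zero]; exact hs.pos

/-- a sum with at most one non-zero term -/
theorem sum_le_of_unique {P : ι → Prop} [DecidablePred P] (hP : ∀ l l', P l → P l' → l = l')
    {x : ℝ} (hx : 0 ≤ x) : ∑ l, (if P l then x else 0) ≤ x := by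
  classical
  by_cases h : ∃ l, P l
  · obtain ⟨l, hl⟩ := h
    rw [Finset.sum_eq_single l]
    · simp [hl]
    · intro b _ hb
      have : ¬ P b := fun hb' => hb (hP _ _ hb' hl)
      simp [this]
    · simp
  · push Not at h
    simp [h, hx]

/-- weighted bound for the pair sum -/
theorem kappa_le (hs : Sep s ρ) (i j : ι) (u c : ι → ℝ) (hc : ∀ k, 0 ≤ c k)
    (hcc : ∀ k l, Rel s ρ i j k l → 1 ≤ c k * c l) (hu : ∀ k, 0 ≤ u k) :
    ∑ k, ∑ l, (if Rel s ρ i j k l then u k * u l else 0) ≤ ∑ k, c k * u k ^ 2 := by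
  have key : ∀ k l, (if Rel s ρ i j k l then u k * u l else 0) ≤
      (if Rel s ρ i j k l then (c k * u k ^ 2) / 2 else 0) +
      (if Rel s ρ i j k l then (c l * u l ^ 2) / 2 else 0) := by
    intro k l
    split_ifs with h
    · have h1 := hcc k l h
      have h2 := hu k
      have h3 := hu l
      have h4 : (u k * u l) ^ 2 ≤ (c k * u k ^ 2) * (c l * u l ^ 2) := by
        have : (c k * u k ^ 2) * (c l * u l ^ 2) = (c k * c l) * (u k * u l) ^ 2 := by ring
        rw [this]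
        nlinarith [sq_nonneg (u k * u l)]
      have h5 : 0 ≤ c k * u k ^ 2 := mul_nonneg (hc k) (sq_nonneg _)
      have h6 : 0 ≤ c l * u l ^ 2 := mul_nonneg (hc l) (sq_nonneg _)
      have h7 : 0 ≤ u k * u l := mul_nonneg h2 h3
      nlinarith [sq_nonneg (c k * u k ^ 2 - c l * u l ^ 2),
        abs_le_of_sq_le_sq' (a := u k * u l) (b := (c k * u k ^ 2) / 2 + (c l * u l ^ 2) / 2)
          (by nlinarith [sq_nonneg (c k * u k ^ 2 - c l * u l ^ 2)]) (by linarith)]
    · simp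
  calc ∑ k, ∑ l, (if Rel s ρ i j k l then u k * u l else 0)
      ≤ ∑ k, ∑ l, ((if Rel s ρ i j k l then (c k * u k ^ 2) / 2 else 0) +
        (if Rel s ρ i j k l then (c l * u l ^ 2) / 2 else 0)) :=
        Finset.sum_le_sum fun k _ => Finset.sum_le_sum fun l _ => key k l
    _ = ∑ k, ∑ l, (if Rel s ρ i j k l then (c k * u k ^ 2) / 2 else 0) +
        ∑ l, ∑ k, (if Rel s ρ i j k l then (c l * u l ^ 2) / 2 else 0) := by
        rw [Finset.sum_comm (f := fun l k => (if Rel s ρ i j k l then (c l * u l ^ 2) / 2 else 0)),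
          ← Finset.sum_add_distrib]
        exact Finset.sum_congr rfl fun k _ => Finset.sum_add_distrib
    _ ≤ ∑ k, (c k * u k ^ 2) / 2 + ∑ l, (c l * u l ^ 2) / 2 := by
        refine add_le_add (Finset.sum_le_sum fun k _ => ?_) (Finset.sum_le_sum fun l _ => ?_)
        · exact sum_le_of_unique (fun l l' h h' => Rel.det₄ hs h h')
            (by have := mul_nonneg (hc k) (sq_nonneg (u k)); linarith)
        · exact sum_le_of_unique (fun l l' h h' => Rel.det₃ hs h h')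
            (by have := mul_nonneg (hc l) (sq_nonneg (u l)); linarith)
    _ = ∑ k, c k * u k ^ 2 := by
        rw [← Finset.sum_add_distrib]
        exact Finset.sum_congr rfl fun k _ => by ring

/-- the four-linear form -/
noncomputable def Q4 (s : ι → ℝ) (ρ : ℝ) (f g h w : ι → ℝ) : ℝ :=
  ∑ i, ∑ j, ∑ k, ∑ l, (if Rel s ρ i j k l then f i * g j * h k * w l else 0)

theorem Q4_swap₁ (f g h w : ι → ℝ) : Q4 s ρ f g h w = Q4 s ρ g f h w := by
  unfold Q4
  rw [Finset.sum_comm]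
  refine Finset.sum_congr rfl fun j _ => Finset.sum_congr rfl fun i _ =>
    Finset.sum_congr rfl fun k _ => Finset.sum_congr rfl fun l _ => ?_
  by_cases hR : Rel s ρ i j k l
  · rw [if_pos hR, if_pos hR.swap₁]; ring
  · rw [if_neg hR, if_neg (fun h => hR h.swap₁)]

theorem Q4_swap₂ (f g h w : ι → ℝ) : Q4 s ρ f g h w = Q4 s ρ f g w h := by
  unfold Q4
  refine Finset.sum_congr rfl fun i _ => Finset.sum_congr rfl fun j _ => ?_
  rw [Finset.sum_comm]
  refine Finset.sum_congr rfl fun k _ => Finset.sum_congr rfl fun l _ => ?_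
  by_cases hR : Rel s ρ i j l k
  · rw [if_pos hR, if_pos hR.swap₂]; ring
  · rw [if_neg hR, if_neg (fun h => hR h.swap₂)]

theorem Q4_flip (f g h w : ι → ℝ) : Q4 s ρ f g h w = Q4 s ρ h w f g := by
  unfold Q4
  have e1 : ∀ F : ι → ι → ι → ι → ℝ, ∑ i, ∑ j, ∑ k, ∑ l, F i j k l =
      ∑ x : ι × ι, ∑ y : ι × ι, F x.1 x.2 y.1 y.2 := by
    intro F
    rw [Fintype.sum_prod_type]
    refine Finset.sum_congr rfl fun i _ => Finset.sum_congr rfl fun j _ => ?_
    rw [Fintype.sum_prod_type]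
  rw [e1, e1, Finset.sum_comm]
  refine Finset.sum_congr rfl fun y _ => Finset.sum_congr rfl fun x _ => ?_
  by_cases hR : Rel s ρ x.1 x.2 y.1 y.2
  · rw [if_pos hR, if_pos hR.symm]; ring
  · rw [if_neg hR, if_neg (fun h => hR h.symm)]

/-- first step: `Q ≤ ∑ μ_i μ_j κ(i,j)` -/
theorem Q_le_kappa (b : ι → ℝ) (hb : ∀ i, 0 ≤ b i) :
    Q4 s ρ (fun i => b i ^ 3) (fun i => b i ^ 3) (fun i => b i ^ 3) (fun i => b i ^ 3) ≤
    ∑ i, ∑ j, b i ^ 4 * b j ^ 4 *
      ∑ k, ∑ l, (if Rel s ρ i j k l then b k ^ 2 * b l ^ 2 else 0) := by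
  have h1 : Q4 s ρ (fun i => b i ^ 3) (fun i => b i ^ 3) (fun i => b i ^ 3) (fun i => b i ^ 3) ≤
      (Q4 s ρ (fun i => b i ^ 4) (fun i => b i ^ 4) (fun i => b i ^ 2) (fun i => b i ^ 2) +
       Q4 s ρ (fun i => b i ^ 2) (fun i => b i ^ 2) (fun i => b i ^ 4) (fun i => b i ^ 4)) / 2 := by
    unfold Q4
    rw [← Finset.sum_add_distrib, Finset.sum_div]
    refine Finset.sum_le_sum fun i _ => ?_
    rw [← Finset.sum_add_distrib, Finset.sum_div]
    refine Finset.sum_le_sum fun j _ => ?_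
    rw [← Finset.sum_add_distrib, Finset.sum_div]
    refine Finset.sum_le_sum fun k _ => ?_
    rw [← Finset.sum_add_distrib, Finset.sum_div]
    refine Finset.sum_le_sum fun l _ => ?_
    split_ifs
    · nlinarith [sq_nonneg (b i ^ 2 * b j ^ 2 * b k * b l - b k ^ 2 * b l ^ 2 * b i * b j)]
    · simp
  rw [Q4_flip (fun i => b i ^ 2)] at h1
  have h2 : Q4 s ρ (fun i => b i ^ 4) (fun i => b i ^ 4) (fun i => b i ^ 2) (fun i => b i ^ 2) =
      ∑ i, ∑ j, b i ^ 4 * b j ^ 4 *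
      ∑ k, ∑ l, (if Rel s ρ i j k l then b k ^ 2 * b l ^ 2 else 0) := by
    unfold Q4
    refine Finset.sum_congr rfl fun i _ => Finset.sum_congr rfl fun j _ => ?_
    rw [Finset.mul_sum]
    refine Finset.sum_congr rfl fun k _ => ?_
    rw [Finset.mul_sum]
    refine Finset.sum_congr rfl fun l _ => ?_
    split_ifs <;> ring
  rw [← h2]; linarith

/-- base inequality `‖a*a‖₂ ≤ ‖a‖_{4/3}²` -/
theorem Q_le_base (hs : Sep s ρ) (b : ι → ℝ) (hb : ∀ i, 0 ≤ b i) :
    Q4 s ρ (fun i => b i ^ 3) (fun i => b i ^ 3) (fun i => b i ^ 3) (fun i => b i ^ 3) ≤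
    (∑ i, b i ^ 4) ^ 3 := by
  refine (Q_le_kappa b hb).trans ?_
  have h1 : ∀ i j, ∑ k, ∑ l, (if Rel s ρ i j k l then b k ^ 2 * b l ^ 2 else 0) ≤
      ∑ i, b i ^ 4 := by
    intro i j
    refine (kappa_le hs i j (fun k => b k ^ 2) (fun _ => 1) (fun _ => zero_le_one)
      (fun _ _ _ => by norm_num) (fun k => by positivity)).trans (le_of_eq ?_)
    exact Finset.sum_congr rfl fun k _ => by ring
  calc ∑ i, ∑ j, b i ^ 4 * b j ^ 4 *
      ∑ k, ∑ l, (if Rel s ρ i j k l then b k ^ 2 * b l ^ 2 else 0)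
      ≤ ∑ i, ∑ j, b i ^ 4 * b j ^ 4 * ∑ i, b i ^ 4 :=
        Finset.sum_le_sum fun i _ => Finset.sum_le_sum fun j _ =>
          mul_le_mul_of_nonneg_left (h1 i j) (by positivity)
    _ = (∑ i, b i ^ 4) ^ 3 := by
        simp_rw [← Finset.sum_mul, ← Finset.mul_sum, ← Finset.sum_mul]
        ring

/-- gap when there is no large atom -/
theorem Q_le_gap (hs : Sep s ρ) (b : ι → ℝ) (hb : ∀ i, 0 ≤ b i) (hsum : ∑ i, b i ^ 4 = 1)
    {δ : ℝ} (hδ : 0 < δ) (hδ1 : δ ≤ 1) (hat : ∀ i, b i ^ 4 ≤ 1 - δ) :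
    Q4 s ρ (fun i => b i ^ 3) (fun i => b i ^ 3) (fun i => b i ^ 3) (fun i => b i ^ 3) ≤
    1 - δ ^ 3 / 128 := by
  classical
  -- the set of indices with small mass strictly to the right
  set A : Finset ι := univ.filter (fun i => ∑ k ∈ univ.filter (fun k => s i < s k), b k ^ 4 ≤ δ / 4)
    with hA
  have hne : (univ : Finset ι).Nonempty := by
    rw [Finset.nonempty_iff_ne_empty]
    intro h
    rw [h, Finset.sum_empty] at hsum
    norm_num at hsum
  have hAne : A.Nonempty := by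
    obtain ⟨m, _, hm⟩ := Finset.exists_max_image univ s hne
    refine ⟨m, ?_⟩
    rw [hA, Finset.mem_filter]
    refine ⟨Finset.mem_univ _, ?_⟩
    rw [Finset.sum_eq_zero]
    · linarith
    · intro k hk
      rw [Finset.mem_filter] at hk
      exact absurd (hm k (Finset.mem_univ _)) (not_le.mpr hk.2)
  obtain ⟨z, hzA, hz⟩ := Finset.exists_min_image A s hAne
  have hR : ∑ k ∈ univ.filter (fun k => s z < s k), b k ^ 4 ≤ δ / 4 := by
    rw [hA, Finset.mem_filter] at hzA; exact hzA.2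
  have hG : δ / 4 ≤ ∑ k ∈ univ.filter (fun k => s z ≤ s k), b k ^ 4 := by
    by_cases hc : ∃ k, k ∉ A
    · have hcne : (univ \ A).Nonempty := by
        obtain ⟨k, hk⟩ := hc; exact ⟨k, by simp [hk]⟩
      obtain ⟨m, hm, hm'⟩ := Finset.exists_max_image (univ \ A) s hcne
      have hmA : m ∉ A := by
        rw [Finset.mem_sdiff] at hm; exact hm.2
      have h1 : δ / 4 < ∑ k ∈ univ.filter (fun k => s m < s k), b k ^ 4 := by
        by_contra hcon
        exact hmA (by rw [hA, Finset.mem_filter]; exact ⟨Finset.mem_univ _, not_lt.mp hcon⟩)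
      refine h1.le.trans (Finset.sum_le_sum_of_subset_of_nonneg ?_ fun _ _ _ => by positivity)
      intro k hk
      rw [Finset.mem_filter] at hk ⊢
      refine ⟨Finset.mem_univ _, hz k ?_⟩
      by_contra hkA
      exact absurd (hm' k (by simp [hkA])) (not_le.mpr hk.2)
    · push Not at hc
      have : univ.filter (fun k => s z ≤ s k) = univ := by
        ext k; simp [hz k (hc k)]
      rw [this, hsum]; linarith
  -- weights
  set c : ι → ℝ := fun k => if s k < s z then 1 / 2 else if s z < s k then 2 else 1 with hcdef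
  have hc0 : ∀ k, 0 ≤ c k := by
    intro k; simp only [hcdef]; split_ifs <;> norm_num
  have hcsum : ∑ k, c k * (b k ^ 2) ^ 2 ≤ 1 - δ / 8 := by
    have h1 : ∀ k, c k * (b k ^ 2) ^ 2 = b k ^ 4 - (1 / 2) * (if s k < s z then b k ^ 4 else 0)
        + (if s z < s k then b k ^ 4 else 0) := by
      intro k
      simp only [hcdef]
      by_cases h2 : s k < s z
      · rw [if_pos h2, if_pos h2, if_neg (not_lt.mpr h2.le)]; ring
      · by_cases h3 : s z < s k
        · rw [if_neg h2, if_pos h3, if_neg h2, if_pos h3]; ring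
        · rw [if_neg h2, if_neg h3, if_neg h2, if_neg h3]; ring
    simp_rw [h1]
    rw [Finset.sum_add_distrib, Finset.sum_sub_distrib, hsum, ← Finset.mul_sum,
      ← Finset.sum_filter, ← Finset.sum_filter]
    have h4 : 1 ≤ ∑ k ∈ univ.filter (fun k => s k < s z), b k ^ 4 + b z ^ 4 +
        ∑ k ∈ univ.filter (fun k => s z < s k), b k ^ 4 := by
      rw [← hsum, Finset.sum_filter, Finset.sum_filter]
      have h5 : b z ^ 4 = ∑ k, (if k = z then b k ^ 4 else 0) := by simp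
      rw [h5, ← Finset.sum_add_distrib, ← Finset.sum_add_distrib]
      refine Finset.sum_le_sum fun k _ => ?_
      rcases lt_trichotomy (s k) (s z) with h6 | h6 | h6
      · rw [if_pos h6, if_neg (not_lt.mpr h6.le)]
        have : (0:ℝ) ≤ (if k = z then b k ^ 4 else 0) := by split_ifs <;> positivity
        linarith
      · have h7 : k = z := by
          by_contra hkz
          exact hs.inj k z hkz h6
        rw [if_pos h7, h6, if_neg (lt_irrefl _)]; simp
      · rw [if_neg (not_lt.mpr h6.le), if_pos h6]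
        have : (0:ℝ) ≤ (if k = z then b k ^ 4 else 0) := by split_ifs <;> positivity
        linarith
    have h8 := hat z
    linarith
  have hpair : ∀ i j, s z ≤ s i → s z ≤ s j →
      ∑ k, ∑ l, (if Rel s ρ i j k l then b k ^ 2 * b l ^ 2 else 0) ≤ 1 - δ / 8 := by
    intro i j hi hj
    refine (kappa_le hs i j (fun k => b k ^ 2) c hc0 ?_ (fun k => by positivity)).trans hcsum
    have hgt : ∀ k l, Rel s ρ i j k l → s k < s z → s z < s l := by
      intro k l hR hk
      have h1 : 3 * ρ ≤ |s k - s z| := hs.sep k z (fun h => by rw [h] at hk; exact lt_irrefl _ hk)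
      rw [abs_of_neg (by linarith)] at h1
      unfold Rel at hR
      have h2 := (abs_le.mp hR)
      have h3 := hs.pos
      linarith [h2.1, h2.2]
    intro k l hRel
    simp only [hcdef]
    by_cases h1 : s k < s z
    · have h2 := hgt k l hRel h1
      rw [if_pos h1, if_neg (not_lt.mpr h2.le), if_pos h2]; norm_num
    · by_cases h3 : s l < s z
      · have h2 := hgt l k hRel.swap₂ h3
        rw [if_neg h1, if_pos h2, if_pos h3]; norm_num
      · rw [if_neg h1, if_neg h3]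
        split_ifs <;> norm_num
  have hall : ∀ i j, ∑ k, ∑ l, (if Rel s ρ i j k l then b k ^ 2 * b l ^ 2 else 0) ≤ 1 := by
    intro i j
    refine (kappa_le hs i j (fun k => b k ^ 2) (fun _ => 1) (fun _ => zero_le_one)
      (fun _ _ _ => by norm_num) (fun k => by positivity)).trans (le_of_eq ?_)
    have h1 : ∑ k, (1:ℝ) * (b k ^ 2) ^ 2 = ∑ k, b k ^ 4 :=
      Finset.sum_congr rfl fun k _ => by ring
    rw [h1, hsum]
  refine (Q_le_kappa b hb).trans ?_
  have hterm : ∀ i j, b i ^ 4 * b j ^ 4 *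
      ∑ k, ∑ l, (if Rel s ρ i j k l then b k ^ 2 * b l ^ 2 else 0) ≤
      b i ^ 4 * b j ^ 4 - δ / 8 * ((if s z ≤ s i then b i ^ 4 else 0) *
        (if s z ≤ s j then b j ^ 4 else 0)) := by
    intro i j
    have hp : 0 ≤ b i ^ 4 * b j ^ 4 := by positivity
    by_cases hi : s z ≤ s i
    · by_cases hj : s z ≤ s j
      · rw [if_pos hi, if_pos hj]
        have := mul_le_mul_of_nonneg_left (hpair i j hi hj) hp
        nlinarith
      · rw [if_neg hj]
        have := mul_le_mul_of_nonneg_left (hall i j) hp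
        linarith
    · rw [if_neg hi]
      have := mul_le_mul_of_nonneg_left (hall i j) hp
      linarith
  calc ∑ i, ∑ j, b i ^ 4 * b j ^ 4 *
      ∑ k, ∑ l, (if Rel s ρ i j k l then b k ^ 2 * b l ^ 2 else 0)
      ≤ ∑ i, ∑ j, (b i ^ 4 * b j ^ 4 - δ / 8 * ((if s z ≤ s i then b i ^ 4 else 0) *
        (if s z ≤ s j then b j ^ 4 else 0))) :=
        Finset.sum_le_sum fun i _ => Finset.sum_le_sum fun j _ => hterm i j
    _ = (∑ i, b i ^ 4) * (∑ j, b j ^ 4) - δ / 8 * ((∑ i, (if s z ≤ s i then b i ^ 4 else 0)) *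
        (∑ j, (if s z ≤ s j then b j ^ 4 else 0))) := by
        rw [Finset.sum_mul_sum, Finset.sum_mul_sum, Finset.mul_sum, ← Finset.sum_sub_distrib]
        refine Finset.sum_congr rfl fun i _ => ?_
        rw [Finset.sum_sub_distrib, Finset.mul_sum]
    _ ≤ 1 - δ ^ 3 / 128 := by
        rw [hsum, ← Finset.sum_filter]
        have h9 : 0 ≤ δ / 4 := by linarith
        nlinarith [mul_le_mul hG hG h9 (h9.trans hG)]

/-- `Q4` is bounded by sums over pairs: cubic form with one frozen index. -/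
theorem cubic_le (hs : Sep s ρ) (z : ι) (b : ι → ℝ) (hb : ∀ i, 0 ≤ b i) {β : ℝ} (hβ : 0 ≤ β)
    (hbβ : ∀ i, b i ≤ β) :
    ∑ j, ∑ k, ∑ l, (if Rel s ρ z j k l then b j ^ 3 * b k ^ 3 * b l ^ 3 else 0) ≤
      3 * β * (∑ i, b i ^ 4) ^ 2 := by
  have key : ∀ j k l, (if Rel s ρ z j k l then b j ^ 3 * b k ^ 3 * b l ^ 3 else 0) ≤
      (if Rel s ρ z j k l then β * (b j ^ 4 * b k ^ 4) else 0) +
      (if Rel s ρ z j k l then β * (b j ^ 4 * b l ^ 4) else 0) +
      (if Rel s ρ z j k l then β * (b k ^ 4 * b l ^ 4) else 0) := by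
    intro j k l
    split_ifs
    · -- the smallest of the three
      have aux : ∀ x y w : ℝ, 0 ≤ w → w ≤ x → w ≤ y → w ≤ β →
          x ^ 3 * y ^ 3 * w ^ 3 ≤ β * (x ^ 4 * y ^ 4) := by
        intro x y w hw hwx hwy hwβ
        have hx : 0 ≤ x := hw.trans hwx
        have hy : 0 ≤ y := hw.trans hwy
        have h1 : w ^ 3 ≤ β * (x * y) := by
          have h2 : w * w ≤ x * y := mul_le_mul hwx hwy hw hx
          calc w ^ 3 = w * (w * w) := by ring
            _ ≤ β * (x * y) := mul_le_mul hwβ h2 (mul_nonneg hw hw) hβ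
        calc x ^ 3 * y ^ 3 * w ^ 3 ≤ x ^ 3 * y ^ 3 * (β * (x * y)) :=
              mul_le_mul_of_nonneg_left h1 (by positivity)
          _ = β * (x ^ 4 * y ^ 4) := by ring
      have p1 : 0 ≤ β * (b j ^ 4 * b k ^ 4) := by positivity
      have p2 : 0 ≤ β * (b j ^ 4 * b l ^ 4) := by positivity
      have p3 : 0 ≤ β * (b k ^ 4 * b l ^ 4) := by positivity
      rcases le_total (b j) (b k) with h1 | h1
      · rcases le_total (b j) (b l) with h2 | h2
        · have := aux (b k) (b l) (b j) (hb j) h1 h2 (hbβ j)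
          nlinarith
        · have := aux (b j) (b k) (b l) (hb l) h2 (h2.trans h1) (hbβ l)
          nlinarith
      · rcases le_total (b k) (b l) with h2 | h2
        · have := aux (b j) (b l) (b k) (hb k) h1 h2 (hbβ k)
          nlinarith
        · have := aux (b j) (b k) (b l) (hb l) (h2.trans h1) h2 (hbβ l)
          nlinarith
    · simp
  have s1 : ∑ j, ∑ k, ∑ l, (if Rel s ρ z j k l then β * (b j ^ 4 * b k ^ 4) else 0) ≤
      β * (∑ i, b i ^ 4) ^ 2 := by
    calc _ ≤ ∑ j, ∑ k, β * (b j ^ 4 * b k ^ 4) :=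
          Finset.sum_le_sum fun j _ => Finset.sum_le_sum fun k _ =>
            sum_le_of_unique (fun l l' h h' => Rel.det₄ hs h h') (by positivity)
      _ = β * (∑ i, b i ^ 4) ^ 2 := by
          rw [sq, Finset.sum_mul_sum, Finset.mul_sum]
          exact Finset.sum_congr rfl fun j _ => by rw [Finset.mul_sum]
  have s2 : ∑ j, ∑ k, ∑ l, (if Rel s ρ z j k l then β * (b j ^ 4 * b l ^ 4) else 0) ≤
      β * (∑ i, b i ^ 4) ^ 2 := by
    calc _ = ∑ j, ∑ l, ∑ k, (if Rel s ρ z j k l then β * (b j ^ 4 * b l ^ 4) else 0) :=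
          Finset.sum_congr rfl fun j _ => Finset.sum_comm
      _ ≤ ∑ j, ∑ l, β * (b j ^ 4 * b l ^ 4) :=
          Finset.sum_le_sum fun j _ => Finset.sum_le_sum fun l _ =>
            sum_le_of_unique (fun k k' h h' => Rel.det₃ hs h h') (by positivity)
      _ = β * (∑ i, b i ^ 4) ^ 2 := by
          rw [sq, Finset.sum_mul_sum, Finset.mul_sum]
          exact Finset.sum_congr rfl fun j _ => by rw [Finset.mul_sum]
  have s3 : ∑ j, ∑ k, ∑ l, (if Rel s ρ z j k l then β * (b k ^ 4 * b l ^ 4) else 0) ≤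
      β * (∑ i, b i ^ 4) ^ 2 := by
    calc _ = ∑ k, ∑ l, ∑ j, (if Rel s ρ z j k l then β * (b k ^ 4 * b l ^ 4) else 0) := by
          rw [Finset.sum_comm]
          exact Finset.sum_congr rfl fun k _ => Finset.sum_comm
      _ ≤ ∑ k, ∑ l, β * (b k ^ 4 * b l ^ 4) :=
          Finset.sum_le_sum fun k _ => Finset.sum_le_sum fun l _ =>
            sum_le_of_unique (fun j j' h h' => Rel.det₂ hs h h') (by positivity)
      _ = β * (∑ i, b i ^ 4) ^ 2 := by
          rw [sq, Finset.sum_mul_sum, Finset.mul_sum]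
          exact Finset.sum_congr rfl fun j _ => by rw [Finset.mul_sum]
  calc _ ≤ ∑ j, ∑ k, ∑ l, ((if Rel s ρ z j k l then β * (b j ^ 4 * b k ^ 4) else 0) +
      (if Rel s ρ z j k l then β * (b j ^ 4 * b l ^ 4) else 0) +
      (if Rel s ρ z j k l then β * (b k ^ 4 * b l ^ 4) else 0)) :=
        Finset.sum_le_sum fun j _ => Finset.sum_le_sum fun k _ =>
          Finset.sum_le_sum fun l _ => key j k l
    _ ≤ 3 * β * (∑ i, b i ^ 4) ^ 2 := by
        simp_rw [Finset.sum_add_distrib]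
        linarith

/-- the form with one frozen variable -/
theorem Q4_single [DecidableEq ι] (z : ι) (x : ℝ) (g h w : ι → ℝ) :
    Q4 s ρ (fun i => if i = z then x else 0) g h w =
      x * ∑ j, ∑ k, ∑ l, (if Rel s ρ z j k l then g j * h k * w l else 0) := by
  unfold Q4
  rw [Finset.sum_eq_single z]
  · rw [Finset.mul_sum]
    refine Finset.sum_congr rfl fun j _ => ?_
    rw [Finset.mul_sum]
    refine Finset.sum_congr rfl fun k _ => ?_
    rw [Finset.mul_sum]
    refine Finset.sum_congr rfl fun l _ => ?_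
    split_ifs
    · simp; ring
    · simp
  · intro i _ hi
    refine Finset.sum_eq_zero fun j _ => Finset.sum_eq_zero fun k _ =>
      Finset.sum_eq_zero fun l _ => ?_
    simp [hi]
  · simp

theorem Q4_add₁ (f f' g h w : ι → ℝ) :
    Q4 s ρ (fun i => f i + f' i) g h w = Q4 s ρ f g h w + Q4 s ρ f' g h w := by
  unfold Q4
  simp_rw [← Finset.sum_add_distrib]
  refine Finset.sum_congr rfl fun i _ => Finset.sum_congr rfl fun j _ =>
    Finset.sum_congr rfl fun k _ => Finset.sum_congr rfl fun l _ => ?_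
  split_ifs
  · ring
  · simp

theorem Q4_add₂ (f g g' h w : ι → ℝ) :
    Q4 s ρ f (fun i => g i + g' i) h w = Q4 s ρ f g h w + Q4 s ρ f g' h w := by
  rw [Q4_swap₁, Q4_add₁, Q4_swap₁ g, Q4_swap₁ g']

theorem Q4_add₃ (f g h h' w : ι → ℝ) :
    Q4 s ρ f g (fun i => h i + h' i) w = Q4 s ρ f g h w + Q4 s ρ f g h' w := by
  rw [Q4_flip, Q4_add₁, Q4_flip h, Q4_flip h']

theorem Q4_add₄ (f g h w w' : ι → ℝ) :
    Q4 s ρ f g h (fun i => w i + w' i) = Q4 s ρ f g h w + Q4 s ρ f g h w' := by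
  rw [Q4_swap₂, Q4_add₃, Q4_swap₂ _ _ w, Q4_swap₂ _ _ w']

/-- expansion around an atom `z` -/
theorem Q_le_atom (hs : Sep s ρ) [DecidableEq ι] (z : ι) (x : ℝ) (hx : 0 ≤ x) (b : ι → ℝ)
    (hb : ∀ i, 0 ≤ b i) (hbz : b z = 0) {β : ℝ} (hβ : 0 ≤ β) (hbβ : ∀ i, b i ≤ β) :
    Q4 s ρ (fun i => (if i = z then x else 0) + b i ^ 3) (fun i => (if i = z then x else 0) + b i ^ 3)
      (fun i => (if i = z then x else 0) + b i ^ 3) (fun i => (if i = z then x else 0) + b i ^ 3) ≤
    x ^ 4 + 6 * x ^ 2 * ∑ i, b i ^ 6 + 12 * x * β * (∑ i, b i ^ 4) ^ 2 + (∑ i, b i ^ 4) ^ 3 := by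
  set e : ι → ℝ := fun i => if i = z then x else 0 with he
  set v : ι → ℝ := fun i => b i ^ 3 with hv
  have hv0 : ∀ i, 0 ≤ v i := fun i => by simp only [hv]; exact pow_nonneg (hb i) 3
  have hvz : v z = 0 := by simp [hv, hbz]
  have t0 : Q4 s ρ e e e e ≤ x ^ 4 := by
    rw [he, Q4_single]
    have : ∀ j, ∑ k, ∑ l, (if Rel s ρ z j k l then (if j = z then x else 0) *
        (if k = z then x else 0) * (if l = z then x else 0) else 0) =
        if j = z then (x * x * x) else 0 := by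
      intro j
      by_cases hj : j = z
      · rw [Finset.sum_eq_single z]
        · rw [Finset.sum_eq_single z]
          · rw [if_pos (by rw [hj]; exact Rel.refl₀ hs z z)]; simp [hj]
          · intro l _ hl; simp [hl]
          · simp
        · intro k _ hk; simp [hk]
        · simp
      · simp [hj]
    simp_rw [this]
    rw [Finset.sum_ite_eq' univ z, if_pos (Finset.mem_univ _)]
    nlinarith [pow_nonneg hx 4]
  have t3 : Q4 s ρ e e e v = 0 := by
    rw [he, Q4_single]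
    have : ∀ j k l, (if Rel s ρ z j k l then (if j = z then x else 0) *
        (if k = z then x else 0) * v l else 0) = 0 := by
      intro j k l
      by_cases hR : Rel s ρ z j k l
      · rw [if_pos hR]
        by_cases hj : j = z
        · by_cases hk : k = z
          · rw [hj, hk] at hR
            have hl : l = z := Rel.det₄ hs hR (Rel.refl₀ hs z z)
            rw [hl, hvz, mul_zero]
          · rw [if_neg hk, mul_zero, zero_mul]
        · rw [if_neg hj, zero_mul, zero_mul]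
      · rw [if_neg hR]
    rw [Finset.sum_eq_zero, mul_zero]
    intro j _
    refine Finset.sum_eq_zero fun k _ => Finset.sum_eq_zero fun l _ => this j k l
  have sq6 : ∑ i, v i ^ 2 = ∑ i, b i ^ 6 := Finset.sum_congr rfl fun i _ => by
    simp only [hv]; ring
  have t2a : Q4 s ρ e v e v ≤ x ^ 2 * ∑ i, b i ^ 6 := by
    rw [he, Q4_single, sq, mul_assoc]
    refine mul_le_mul_of_nonneg_left ?_ hx
    rw [← sq6, Finset.mul_sum]
    refine Finset.sum_le_sum fun j _ => ?_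
    rw [Finset.sum_eq_single z]
    · rw [Finset.sum_eq_single j]
      · rw [if_pos (Rel.refl₀ hs z j)]; simp only [if_true]; nlinarith
      · intro l _ hl
        rw [if_neg]
        intro hR
        exact hl (Rel.det₄ hs hR (Rel.refl₀ hs z j))
      · simp
    · intro k _ hk
      simp [hk]
    · simp
  have t2b : Q4 s ρ e e v v ≤ x ^ 2 * ∑ i, b i ^ 6 := by
    rw [he, Q4_single, sq, mul_assoc]
    refine mul_le_mul_of_nonneg_left ?_ hx
    rw [Finset.sum_eq_single z]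
    · rw [if_pos rfl]
      have h1 : ∑ k, ∑ l, (if Rel s ρ z z k l then x * v k * v l else 0) =
          x * ∑ k, ∑ l, (if Rel s ρ z z k l then v k * v l else 0) := by
        rw [Finset.mul_sum]
        refine Finset.sum_congr rfl fun k _ => ?_
        rw [Finset.mul_sum]
        refine Finset.sum_congr rfl fun l _ => ?_
        split_ifs
        · ring
        · simp
      rw [h1]
      refine mul_le_mul_of_nonneg_left ?_ hx
      rw [← sq6]
      refine (kappa_le hs z z v (fun _ => 1) (fun _ => zero_le_one)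
        (fun _ _ _ => by norm_num) hv0).trans (le_of_eq ?_)
      exact Finset.sum_congr rfl fun k _ => by ring
    · intro j _ hj
      refine Finset.sum_eq_zero fun k _ => Finset.sum_eq_zero fun l _ => ?_
      simp [hj]
    · simp
  have t1 : Q4 s ρ e v v v ≤ x * (3 * β * (∑ i, b i ^ 4) ^ 2) := by
    rw [he, Q4_single]
    exact mul_le_mul_of_nonneg_left (cubic_le hs z b hb hβ hbβ) hx
  have tb : Q4 s ρ v v v v ≤ (∑ i, b i ^ 4) ^ 3 := Q_le_base hs b hb
  have expand : Q4 s ρ (fun i => e i + v i) (fun i => e i + v i) (fun i => e i + v i)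
      (fun i => e i + v i) = Q4 s ρ e e e e + 4 * Q4 s ρ e e e v + 2 * Q4 s ρ e e v v +
        4 * Q4 s ρ e v e v + 4 * Q4 s ρ e v v v + Q4 s ρ v v v v := by
    rw [Q4_add₁, Q4_add₂, Q4_add₂, Q4_add₃, Q4_add₃, Q4_add₃, Q4_add₃, Q4_add₄, Q4_add₄,
      Q4_add₄, Q4_add₄, Q4_add₄, Q4_add₄, Q4_add₄, Q4_add₄]
    have a1 : Q4 s ρ e e v e = Q4 s ρ e e e v := Q4_swap₂ _ _ _ _
    have a2 : Q4 s ρ e v e e = Q4 s ρ e e e v := by rw [Q4_flip, Q4_swap₂]; 
    have a3 : Q4 s ρ v e e e = Q4 s ρ e e e v := by rw [Q4_swap₁, a2]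
    have a4 : Q4 s ρ e v v e = Q4 s ρ e v e v := Q4_swap₂ _ _ _ _
    have a5 : Q4 s ρ v e e v = Q4 s ρ e v e v := Q4_swap₁ _ _ _ _
    have a6 : Q4 s ρ v e v e = Q4 s ρ e v e v := by rw [Q4_swap₁, a4]
    have a7 : Q4 s ρ v v e e = Q4 s ρ e e v v := Q4_flip _ _ _ _
    have a8 : Q4 s ρ v e v v = Q4 s ρ e v v v := Q4_swap₁ _ _ _ _
    have a9 : Q4 s ρ v v e v = Q4 s ρ e v v v := Q4_flip _ _ _ _
    have a10 : Q4 s ρ v v v e = Q4 s ρ e v v v := by rw [Q4_swap₂, a9]
    rw [a1, a2, a3, a4, a5, a6, a7, a8, a9, a10]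
    ring
  rw [expand, t3]
  have hq : 12 * x * β * (∑ i, b i ^ 4) ^ 2 = 4 * (x * (3 * β * (∑ i, b i ^ 4) ^ 2)) := by ring
  rw [hq]
  linarith


theorem card_rpow_le {n : ℕ} {c ε : ℝ} (hc : 0 ≤ c) (hε : 0 ≤ ε)
    (h : ε ≤ 3 * c / Real.log (n + 2)) : (n : ℝ) ^ (ε / 4) ≤ Real.exp (3 * c / 4) := by
  have hn : (0:ℝ) ≤ n := Nat.cast_nonneg n
  have hlog : 0 < Real.log ((n : ℝ) + 2) := Real.log_pos (by linarith)
  rcases Nat.eq_zero_or_pos n with h0 | h0
  · rw [h0, Nat.cast_zero]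
    by_cases h1 : ε / 4 = 0
    · rw [h1, Real.rpow_zero]; exact Real.one_le_exp (by positivity)
    · rw [Real.zero_rpow h1]; exact (Real.exp_pos _).le
  · have h1 : (0:ℝ) < n := by exact_mod_cast h0
    rw [Real.rpow_def_of_pos h1, Real.exp_le_exp]
    have h2 : Real.log n ≤ Real.log (n + 2) := Real.log_le_log h1 (by linarith)
    have h3 : 0 ≤ Real.log n := Real.log_nonneg (by exact_mod_cast h0)
    have h4 : ε * Real.log (n + 2) ≤ 3 * c := by rwa [le_div_iff₀ hlog] at h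
    nlinarith

/-- power mean inequality with the counting measure -/
theorem pow_mean (b : ι → ℝ) (hb : ∀ i, 0 ≤ b i) {c q : ℝ} (hc : 0 ≤ c) (hq : 4 ≤ q)
    (hq' : q ≤ 4 + 3 * c / Real.log (Fintype.card ι + 2)) :
    (∑ i, b i ^ 4) ^ (q / 4) ≤ Real.exp (3 * c / 4) * ∑ i, b i ^ q := by
  have h1 := Real.rpow_sum_le_const_mul_sum_rpow (s := (univ : Finset ι)) (f := fun i => b i ^ 4)
    (p := q / 4) (by linarith)
  have h2 : ∀ i, |b i ^ 4| = b i ^ 4 := fun i => abs_of_nonneg (by positivity)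
  simp_rw [h2] at h1
  refine h1.trans ?_
  have h3 : ∀ i, (b i ^ 4) ^ (q / 4) = b i ^ q := by
    intro i
    rw [← Real.rpow_natCast, ← Real.rpow_mul (hb i)]
    congr 1; push_cast; ring
  simp_rw [h3]
  refine mul_le_mul_of_nonneg_right ?_ (Finset.sum_nonneg fun i _ => Real.rpow_nonneg (hb i) _)
  have h4 : q / 4 - 1 = (q - 4) / 4 := by ring
  rw [h4, Finset.card_univ]
  exact card_rpow_le hc (by linarith) (by linarith)

/-- normalised improved Young -/
theorem improved_young_norm (hs : Sep s ρ) (b : ι → ℝ) (hb : ∀ i, 0 ≤ b i)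
    (hsum : ∑ i, b i ^ 4 = 1) {c q : ℝ} (hc : 0 < c) (hc1 : c ≤ (1 / 160000 : ℝ) ^ 3 / 300)
    (hq : 4 ≤ q) (hq' : q ≤ 4 + 3 * c / Real.log (Fintype.card ι + 2)) :
    Q4 s ρ (fun i => b i ^ 3) (fun i => b i ^ 3) (fun i => b i ^ 3) (fun i => b i ^ 3) ≤
      (∑ i, b i ^ q) ^ (12 / q) := by
  classical
  have hq0 : 0 < q := by linarith
  have hcsmall : c ≤ 1 / 1000 := hc1.trans (by norm_num)
  have hlog : 1 / 2 ≤ Real.log ((Fintype.card ι : ℝ) + 2) := by
    have h1 : Real.log 2 ≤ Real.log ((Fintype.card ι : ℝ) + 2) :=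
      Real.log_le_log (by norm_num) (by
        have : (0:ℝ) ≤ Fintype.card ι := Nat.cast_nonneg _
        linarith)
    have := Real.log_two_gt_d9
    linarith
  have hq5 : q ≤ 5 := by
    have h1 : 3 * c / Real.log ((Fintype.card ι : ℝ) + 2) ≤ 1 := by
      rw [div_le_one (by linarith)]; linarith
    linarith
  have hexp : Real.exp (3 * c / 4) ≤ 2 := by
    have h1 : Real.exp (3 * c / 4) ≤ Real.exp (1 / 2) := Real.exp_le_exp.mpr (by linarith)
    have h2 : Real.exp (1 / 2) ^ 2 = Real.exp 1 := by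
      rw [← Real.exp_nat_mul]; norm_num
    have h3 := Real.exp_one_lt_d9
    nlinarith [Real.exp_pos (1 / 2)]
  by_cases hat : ∀ i, b i ^ 4 ≤ 1 - 1 / 160000
  · -- no atom
    refine (Q_le_gap hs b hb hsum (by norm_num) (by norm_num) hat).trans ?_
    have h1 := pow_mean b hb hc.le hq hq'
    rw [hsum, Real.one_rpow] at h1
    have hS0 : 0 < ∑ i, b i ^ q := by
      by_contra hcon
      have := mul_nonpos_of_nonneg_of_nonpos (Real.exp_pos (3 * c / 4)).le (not_lt.mp hcon)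
      linarith
    have h2 : Real.exp (-(3 * c / 4)) ≤ ∑ i, b i ^ q := by
      rw [Real.exp_neg, inv_le_iff_one_le_mul₀' (Real.exp_pos _)]
      exact h1
    have h3 : Real.exp (-(3 * c / 4)) ^ (12 / q) ≤ (∑ i, b i ^ q) ^ (12 / q) :=
      Real.rpow_le_rpow (Real.exp_pos _).le h2 (by positivity)
    refine le_trans ?_ h3
    rw [← Real.exp_mul]
    have h4 : -(9 / 4 * c) ≤ -(3 * c / 4) * (12 / q) := by
      have h5 : 12 / q ≤ 3 := by rw [div_le_iff₀ hq0]; linarith
      nlinarith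
    have h6 := Real.add_one_le_exp (-(3 * c / 4) * (12 / q))
    have h7 : 9 / 4 * c ≤ (1 / 160000 : ℝ) ^ 3 / 128 := by
      have : (1 / 160000 : ℝ) ^ 3 / 300 * (9 / 4) ≤ (1 / 160000 : ℝ) ^ 3 / 128 := by norm_num
      linarith
    linarith
  · push Not at hat
    obtain ⟨z, hz⟩ := hat
    have hbz0 : 0 < b z := by
      rcases (hb z).lt_or_eq with h | h
      · exact h
      · rw [← h] at hz; norm_num at hz
    -- the part away from z
    set b' : ι → ℝ := fun i => if i = z then 0 else b i with hb'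
    have hb'0 : ∀ i, 0 ≤ b' i := by
      intro i; simp only [hb']; split_ifs
      · exact le_rfl
      · exact hb i
    have hb'z : b' z = 0 := by simp [hb']
    have hfun : ∀ i, b i ^ 3 = (if i = z then b z ^ 3 else 0) + b' i ^ 3 := by
      intro i; simp only [hb']; split_ifs with h
      · rw [h]; ring
      · ring
    have hτ : ∑ i, b i ^ 4 = b z ^ 4 + ∑ i, b' i ^ 4 := by
      have h1 : ∀ i, b i ^ 4 = (if i = z then b z ^ 4 else 0) + b' i ^ 4 := by
        intro i; simp only [hb']; split_ifs with h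
        · rw [h]; ring
        · ring
      calc ∑ i, b i ^ 4 = ∑ i, ((if i = z then b z ^ 4 else 0) + b' i ^ 4) :=
            Finset.sum_congr rfl fun i _ => h1 i
        _ = b z ^ 4 + ∑ i, b' i ^ 4 := by
            rw [Finset.sum_add_distrib, Finset.sum_ite_eq' univ z, if_pos (Finset.mem_univ _)]
    have hP : ∑ i, b i ^ q = b z ^ q + ∑ i, b' i ^ q := by
      have h1 : ∀ i, b i ^ q = (if i = z then b z ^ q else 0) + b' i ^ q := by
        intro i; simp only [hb']; split_ifs with h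
        · rw [h, Real.zero_rpow hq0.ne']; ring
        · ring
      calc ∑ i, b i ^ q = ∑ i, ((if i = z then b z ^ q else 0) + b' i ^ q) :=
            Finset.sum_congr rfl fun i _ => h1 i
        _ = b z ^ q + ∑ i, b' i ^ q := by
            rw [Finset.sum_add_distrib, Finset.sum_ite_eq' univ z, if_pos (Finset.mem_univ _)]
    set τ : ℝ := ∑ i, b' i ^ 4 with hτdef
    set P : ℝ := ∑ i, b' i ^ q with hPdef
    have hτ0 : 0 ≤ τ := Finset.sum_nonneg fun i _ => by positivity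
    have hP0 : 0 ≤ P := Finset.sum_nonneg fun i _ => Real.rpow_nonneg (hb'0 i) _
    have hτ1 : τ ≤ 1 / 160000 := by linarith
    have hβ : ∀ i, b' i ≤ 1 / 20 := by
      intro i
      have h1 : b' i ^ 4 ≤ τ := Finset.single_le_sum (f := fun i => b' i ^ 4)
        (fun i _ => by positivity) (Finset.mem_univ i)
      have h2 : b' i ^ 4 ≤ (1 / 20 : ℝ) ^ 4 := by
        refine (h1.trans hτ1).trans (by norm_num)
      exact le_of_pow_le_pow_left₀ (by norm_num) (by norm_num) h2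
    have hbz1 : b z ≤ 1 := by
      have : b z ^ 4 ≤ 1 := by linarith
      exact (pow_le_one_iff_of_nonneg hbz0.le (by norm_num)).mp this
    have hmain := Q_le_atom hs z (b z ^ 3) (by positivity) b' hb'0 hb'z
      (β := 1 / 20) (by norm_num) hβ
    have hfun' : (fun i => b i ^ 3) = fun i => (if i = z then b z ^ 3 else 0) + b' i ^ 3 :=
      funext hfun
    rw [hfun']
    refine hmain.trans ?_
    rw [hP]
    -- upper bound for the error terms
    have e6 : ∑ i, b' i ^ 6 ≤ 1 / 20 * P := by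
      rw [hPdef, Finset.mul_sum]
      refine Finset.sum_le_sum fun i _ => ?_
      rcases (hb'0 i).lt_or_eq with h | h
      · have h1 : b' i ^ 6 = b' i ^ (6 - q) * b' i ^ q := by
          rw [← Real.rpow_add h, ← Real.rpow_natCast]; congr 1; push_cast; ring
        rw [h1]
        refine mul_le_mul_of_nonneg_right ?_ (Real.rpow_nonneg (hb'0 i) _)
        calc b' i ^ (6 - q) ≤ b' i ^ (1:ℝ) :=
              Real.rpow_le_rpow_of_exponent_ge h ((hβ i).trans (by norm_num)) (by linarith)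
          _ ≤ 1 / 20 := by rw [Real.rpow_one]; exact hβ i
      · rw [← h, Real.zero_rpow hq0.ne']; norm_num
    have e4 : τ ^ 2 ≤ 2 * P := by
      have h1 := pow_mean b' hb'0 hc.le hq hq'
      have h2 : τ ^ 2 ≤ τ ^ (q / 4) := by
        rcases hτ0.lt_or_eq with h | h
        · rw [← Real.rpow_natCast]
          exact Real.rpow_le_rpow_of_exponent_ge h (hτ1.trans (by norm_num))
            (by push_cast; linarith)
        · rw [← h, Real.zero_rpow (by positivity)]; norm_num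
      calc τ ^ 2 ≤ τ ^ (q / 4) := h2
        _ ≤ Real.exp (3 * c / 4) * P := h1
        _ ≤ 2 * P := mul_le_mul_of_nonneg_right hexp hP0
    have e3 : τ ^ 3 ≤ 1 / 160000 * (2 * P) := by
      calc τ ^ 3 = τ * τ ^ 2 := by ring
        _ ≤ 1 / 160000 * (2 * P) := mul_le_mul hτ1 e4 (by positivity) (by norm_num)
    -- lower bound for the right-hand side
    have hbzq : 0 < b z ^ q := Real.rpow_pos_of_pos hbz0 _
    have hr : 1 ≤ 12 / q := by rw [le_div_iff₀ hq0]; linarith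
    have hlow : (b z ^ q) ^ (12 / q) + 12 / q * (b z ^ q) ^ (12 / q - 1) * P ≤
        (b z ^ q + P) ^ (12 / q) := by
      have h1 := one_add_mul_self_le_rpow_one_add (s := P / b z ^ q) (p := 12 / q)
        (by have := div_nonneg hP0 hbzq.le; linarith) hr
      have h2 : b z ^ q + P = b z ^ q * (1 + P / b z ^ q) := by
        field_simp
      rw [h2, Real.mul_rpow hbzq.le (by positivity)]
      calc (b z ^ q) ^ (12 / q) + 12 / q * (b z ^ q) ^ (12 / q - 1) * P
          = (b z ^ q) ^ (12 / q) * (1 + 12 / q * (P / b z ^ q)) := by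
            rw [Real.rpow_sub_one hbzq.ne']; field_simp
        _ ≤ (b z ^ q) ^ (12 / q) * (1 + P / b z ^ q) ^ (12 / q) :=
            mul_le_mul_of_nonneg_left h1 (Real.rpow_nonneg hbzq.le _)
    refine le_trans ?_ hlow
    have h12 : (b z ^ q) ^ (12 / q) = (b z ^ 3) ^ 4 := by
      rw [← Real.rpow_mul hbz0.le, ← pow_mul, ← Real.rpow_natCast]
      congr 1; field_simp; norm_num
    have h8 : (1 - 1 / 160000 : ℝ) ^ 2 ≤ (b z ^ q) ^ (12 / q - 1) := by
      rw [← Real.rpow_mul hbz0.le]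
      have h1 : q * (12 / q - 1) = 12 - q := by field_simp
      rw [h1]
      calc (1 - 1 / 160000 : ℝ) ^ 2 ≤ (b z ^ 4) ^ 2 :=
            pow_le_pow_left₀ (by norm_num) hz.le 2
        _ = b z ^ (8:ℝ) := by rw [← pow_mul, ← Real.rpow_natCast]; norm_num
        _ ≤ b z ^ (12 - q) :=
            Real.rpow_le_rpow_of_exponent_ge hbz0 hbz1 (by linarith)
    have h9 : (12 / 5 : ℝ) ≤ 12 / q := by
      rw [div_le_div_iff₀ (by norm_num) hq0]; linarith
    have h10 : 2 * P ≤ 12 / q * (b z ^ q) ^ (12 / q - 1) * P := by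
      refine mul_le_mul_of_nonneg_right ?_ hP0
      calc (2:ℝ) ≤ 12 / 5 * (1 - 1 / 160000 : ℝ) ^ 2 := by norm_num
        _ ≤ 12 / q * (b z ^ q) ^ (12 / q - 1) :=
            mul_le_mul h9 h8 (by norm_num) (by positivity)
    rw [h12]
    have hx1 : b z ^ 3 ≤ 1 := pow_le_one₀ hbz0.le hbz1
    have hx0 : 0 ≤ b z ^ 3 := by positivity
    have f1 : 6 * (b z ^ 3) ^ 2 * ∑ i, b' i ^ 6 ≤ 6 * (1 / 20 * P) := by
      have h1 : (b z ^ 3) ^ 2 ≤ 1 := pow_le_one₀ hx0 hx1
      have h2 : 0 ≤ ∑ i, b' i ^ 6 := Finset.sum_nonneg fun i _ => by positivity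
      calc 6 * (b z ^ 3) ^ 2 * ∑ i, b' i ^ 6 ≤ 6 * 1 * ∑ i, b' i ^ 6 := by
            refine mul_le_mul_of_nonneg_right ?_ h2; linarith
        _ ≤ 6 * (1 / 20 * P) := by linarith
    have f2 : 12 * b z ^ 3 * (1 / 20) * τ ^ 2 ≤ 12 * (1 / 20) * (2 * P) := by
      calc 12 * b z ^ 3 * (1 / 20) * τ ^ 2 ≤ 12 * 1 * (1 / 20) * τ ^ 2 := by
            refine mul_le_mul_of_nonneg_right ?_ (sq_nonneg _); linarith
        _ ≤ 12 * (1 / 20) * (2 * P) := by linarith
    linarith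

/-- zero case -/
theorem Q4_zero {a : ι → ℝ} (h1 : ∀ i, a i = 0) : Q4 s ρ a a a a = 0 := by
  unfold Q4
  refine Finset.sum_eq_zero fun i _ => Finset.sum_eq_zero fun j _ =>
    Finset.sum_eq_zero fun k _ => Finset.sum_eq_zero fun l _ => ?_
  rw [h1 i, zero_mul, zero_mul, zero_mul, ite_self]

/-- homogeneity of the form -/
theorem Q4_scale {a b : ι → ℝ} {t : ℝ} (hab : ∀ i, a i = t ^ 3 * b i ^ 3) :
    Q4 s ρ a a a a = (t ^ 3) ^ 4 * Q4 s ρ (fun i => b i ^ 3) (fun i => b i ^ 3)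
        (fun i => b i ^ 3) (fun i => b i ^ 3) := by
  unfold Q4
  rw [Finset.mul_sum]
  refine Finset.sum_congr rfl fun i _ => ?_
  rw [Finset.mul_sum]
  refine Finset.sum_congr rfl fun j _ => ?_
  rw [Finset.mul_sum]
  refine Finset.sum_congr rfl fun k _ => ?_
  rw [Finset.mul_sum]
  refine Finset.sum_congr rfl fun l _ => ?_
  split_ifs
  · rw [hab i, hab j, hab k, hab l]; ring
  · rw [mul_zero]

/-- homogeneity of the right-hand side -/
theorem rhs_scale {a b : ι → ℝ} {t : ℝ} (ht0 : 0 < t) (hb0 : ∀ i, 0 ≤ b i)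
    (hab : ∀ i, a i = t ^ 3 * b i ^ 3) {p : ℝ} (hp0 : 0 < p) :
    (∑ i, a i ^ p) ^ (4 / p) = (t ^ 3) ^ 4 * (∑ i, b i ^ (3 * p)) ^ (12 / (3 * p)) := by
  have h3 : ∀ i, a i ^ p = (t ^ 3) ^ p * b i ^ (3 * p) := by
    intro i
    rw [hab i, Real.mul_rpow (pow_nonneg ht0.le 3) (pow_nonneg (hb0 i) 3)]
    congr 1
    rw [← Real.rpow_natCast, ← Real.rpow_mul (hb0 i)]; norm_num
  have h4 : p * (4 / p) = ((4 : ℕ) : ℝ) := by
    rw [mul_div_cancel₀ _ hp0.ne']; norm_num
  have h5 : 12 / (3 * p) = 4 / p := by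
    rw [div_eq_div_iff (by positivity) hp0.ne']; ring
  have ht3 : 0 ≤ t ^ 3 := pow_nonneg ht0.le 3
  calc (∑ i, a i ^ p) ^ (4 / p) = ((t ^ 3) ^ p * ∑ i, b i ^ (3 * p)) ^ (4 / p) := by
        rw [Finset.mul_sum]
        congr 1
        exact Finset.sum_congr rfl fun i _ => h3 i
    _ = (t ^ 3) ^ 4 * (∑ i, b i ^ (3 * p)) ^ (12 / (3 * p)) := by
        rw [Real.mul_rpow (Real.rpow_nonneg ht3 _)
          (Finset.sum_nonneg fun i _ => Real.rpow_nonneg (hb0 i) _), ← Real.rpow_mul ht3,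
          h4, Real.rpow_natCast, h5]

/-- improved Young for `Q4`, general amplitude -/
theorem improved_young_Q4 (hs : Sep s ρ) (a : ι → ℝ) (ha : ∀ i, 0 ≤ a i) {c p : ℝ} (hc : 0 < c)
    (hc1 : c ≤ (1 / 160000 : ℝ) ^ 3 / 300) (hp : 4 / 3 ≤ p)
    (hp' : p ≤ 4 / 3 + c / Real.log (Fintype.card ι + 2)) :
    Q4 s ρ a a a a ≤ (∑ i, a i ^ p) ^ (4 / p) := by
  have hp0 : 0 < p := by linarith
  obtain ⟨T, hT⟩ : ∃ T : ℝ, T = ∑ i, (a i ^ (1 / 3 : ℝ)) ^ 4 := ⟨_, rfl⟩
  have hnn : ∀ i, 0 ≤ (a i ^ (1 / 3 : ℝ)) ^ 4 := fun i => pow_nonneg (Real.rpow_nonneg (ha i) _) 4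
  have hT0 : 0 ≤ T := by rw [hT]; exact Finset.sum_nonneg fun i _ => hnn i
  rcases hT0.eq_or_lt with hT1 | hT1
  · -- everything vanishes
    have h1 : ∀ i, a i = 0 := by
      intro i
      have h2 : (a i ^ (1 / 3 : ℝ)) ^ 4 = 0 :=
        (Finset.sum_eq_zero_iff_of_nonneg (fun i _ => hnn i)).mp (hT ▸ hT1.symm) i
          (Finset.mem_univ i)
      have h3 : a i ^ (1 / 3 : ℝ) = 0 := (pow_eq_zero_iff (by norm_num)).mp h2
      rwa [Real.rpow_eq_zero (ha i) (by norm_num)] at h3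
    rw [Q4_zero h1]
    exact Real.rpow_nonneg (Finset.sum_nonneg fun i _ => Real.rpow_nonneg (ha i) _) _
  · -- normalise
    obtain ⟨t, ht⟩ : ∃ t : ℝ, t = T ^ (1 / 4 : ℝ) := ⟨_, rfl⟩
    have ht0 : 0 < t := by rw [ht]; exact Real.rpow_pos_of_pos hT1 _
    have ht4 : t ^ 4 = T := by
      rw [ht, ← Real.rpow_natCast, ← Real.rpow_mul hT0]; norm_num
    obtain ⟨b, hb⟩ : ∃ b : ι → ℝ, ∀ i, b i = a i ^ (1 / 3 : ℝ) / t := ⟨_, fun _ => rfl⟩
    have hb0 : ∀ i, 0 ≤ b i := fun i => by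
      rw [hb]; exact div_nonneg (Real.rpow_nonneg (ha i) _) ht0.le
    have hab : ∀ i, a i = t ^ 3 * b i ^ 3 := by
      intro i
      rw [hb, ← mul_pow, mul_div_cancel₀ _ ht0.ne', ← Real.rpow_natCast, ← Real.rpow_mul (ha i)]
      norm_num
    have hsum : ∑ i, b i ^ 4 = 1 := by
      simp only [hb, div_pow]
      rw [← Finset.sum_div, ht4, ← hT, div_self hT1.ne']
    have hmain := improved_young_norm hs b hb0 hsum (q := 3 * p) hc hc1 (by linarith) (by
        have : 3 * c / Real.log (Fintype.card ι + 2) =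
          3 * (c / Real.log (Fintype.card ι + 2)) := by ring
        rw [this]; linarith)
    rw [Q4_scale hab, rhs_scale ht0 hb0 hab hp0]
    exact mul_le_mul_of_nonneg_left hmain (pow_nonneg (pow_nonneg ht0.le 3) 4)

/-- **Improved Young inequality** for the quadruple form at `3ρ`-separated frequencies. -/
theorem improved_young : ∃ c : ℝ, 0 < c ∧ ∀ (ι : Type) [Fintype ι] (s : ι → ℝ) (ρ : ℝ),
    0 ≤ ρ → (∀ i j, i ≠ j → 3 * ρ ≤ |s i - s j|) → (∀ i j, i ≠ j → s i ≠ s j) →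
    ∀ (a : ι → ℝ), (∀ i, 0 ≤ a i) → ∀ p : ℝ, 4 / 3 ≤ p →
    p ≤ 4 / 3 + c / Real.log (Fintype.card ι + 2) →
    ∑ i, ∑ j, ∑ k, ∑ l, (if |s i + s j - s k - s l| ≤ ρ then a i * a j * a k * a l else 0) ≤
      (∑ i, a i ^ p) ^ (4 / p) := by
  refine ⟨(1 / 160000 : ℝ) ^ 3 / 300, by norm_num, ?_⟩
  intro ι _ s ρ hρ hsep hinj a ha p hp hp'
  have hs : Sep s ρ := ⟨hρ, hsep, hinj⟩
  refine le_trans (le_of_eq ?_) (improved_young_Q4 hs a ha (by norm_num) le_rfl hp hp')
  unfold Q4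
  refine Finset.sum_congr rfl fun i _ => Finset.sum_congr rfl fun j _ =>
    Finset.sum_congr rfl fun k _ => Finset.sum_congr rfl fun l _ => ?_
  by_cases h : |s i + s j - s k - s l| ≤ ρ
  · rw [if_pos h, if_pos (show Rel s ρ i j k l from h)]
  · rw [if_neg h, if_neg (show ¬ Rel s ρ i j k l from h)]

/-- Hölder step: from `ℓ^p` to weights -/
theorem holder_weights (a N : ι → ℝ) (ha : ∀ i, 0 ≤ a i) (hN : ∀ i, 0 ≤ N i)
    (hNa : ∀ i, N i = 0 → a i = 0) {ε p : ℝ}
    (hε : 0 ≤ ε) (hε1 : ε ≤ 1) (hp : p = 4 / (3 - ε)) :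
    (∑ i, a i ^ p) ^ (4 / p) ≤ (∑ i, N i) ^ (2 - ε) * ∑ i, a i ^ 4 / N i ^ (2 - ε) := by
  have h3 : 0 < 3 - ε := by linarith
  have hp0 : 0 < p := by rw [hp]; positivity
  have hp4 : p < 4 := by rw [hp, div_lt_iff₀ h3]; nlinarith
  have h4p : 4 / p = 3 - ε := by rw [hp]; field_simp
  have hprel : (2 - ε) * p = 4 - p := by rw [hp]; field_simp; ring
  have hconj : Real.HolderConjugate (4 / p) (4 / (4 - p)) := by
    rw [Real.holderConjugate_iff]
    refine ⟨by rw [lt_div_iff₀ hp0]; linarith, ?_⟩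
    rw [inv_div, inv_div, ← add_div]
    rw [div_eq_one_iff_eq (by norm_num)]; ring
  obtain ⟨γ, hγ⟩ : ∃ γ : ℝ, γ = (4 - p) / 4 := ⟨_, rfl⟩
  have hγ0 : 0 < γ := by rw [hγ]; linarith
  have hfg : ∀ i, a i ^ p = (a i ^ p / N i ^ γ) * N i ^ γ := by
    intro i
    rcases (hN i).eq_or_lt with h0 | h0
    · rw [hNa i h0.symm, Real.zero_rpow hp0.ne', zero_div, zero_mul]
    · rw [div_mul_cancel₀ _ (Real.rpow_pos_of_pos h0 _).ne']
  have hH := Real.inner_le_Lp_mul_Lq_of_nonneg univ hconj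
    (f := fun i => a i ^ p / N i ^ γ) (g := fun i => N i ^ γ)
    (fun i _ => div_nonneg (Real.rpow_nonneg (ha i) _) (Real.rpow_nonneg (hN i) _))
    (fun i _ => Real.rpow_nonneg (hN i) _)
  have hf : ∀ i, (a i ^ p / N i ^ γ) ^ (4 / p) = a i ^ 4 / N i ^ (2 - ε) := by
    intro i
    rw [Real.div_rpow (Real.rpow_nonneg (ha i) _) (Real.rpow_nonneg (hN i) _),
      ← Real.rpow_mul (ha i), ← Real.rpow_mul (hN i)]
    have e1 : p * (4 / p) = ((4 : ℕ) : ℝ) := by rw [mul_div_cancel₀ _ hp0.ne']; norm_num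
    have e2 : γ * (4 / p) = 2 - ε := by rw [hγ, ← hprel]; field_simp
    rw [e1, e2, Real.rpow_natCast]
  have hg : ∀ i, (N i ^ γ) ^ (4 / (4 - p)) = N i := by
    intro i
    rw [← Real.rpow_mul (hN i)]
    have e1 : γ * (4 / (4 - p)) = 1 := by
      rw [hγ]
      have : (4 - p) ≠ 0 := by linarith
      field_simp
    rw [e1, Real.rpow_one]
  have hH2 : ∑ i, a i ^ p ≤ (∑ i, a i ^ 4 / N i ^ (2 - ε)) ^ (1 / (4 / p)) *
      (∑ i, N i) ^ (1 / (4 / (4 - p))) := by
    calc ∑ i, a i ^ p = ∑ i, (a i ^ p / N i ^ γ) * N i ^ γ :=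
          Finset.sum_congr rfl fun i _ => hfg i
      _ ≤ _ := hH
      _ = (∑ i, a i ^ 4 / N i ^ (2 - ε)) ^ (1 / (4 / p)) *
          (∑ i, N i) ^ (1 / (4 / (4 - p))) := by
          rw [Finset.sum_congr rfl fun i _ => hf i, Finset.sum_congr rfl fun i _ => hg i]
  have hX : 0 ≤ ∑ i, a i ^ 4 / N i ^ (2 - ε) := Finset.sum_nonneg fun i _ =>
    div_nonneg (pow_nonneg (ha i) 4) (Real.rpow_nonneg (hN i) _)
  have hY : 0 ≤ ∑ i, N i := Finset.sum_nonneg fun i _ => hN i
  calc (∑ i, a i ^ p) ^ (4 / p) ≤ ((∑ i, a i ^ 4 / N i ^ (2 - ε)) ^ (1 / (4 / p)) *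
      (∑ i, N i) ^ (1 / (4 / (4 - p)))) ^ (4 / p) :=
        Real.rpow_le_rpow (Finset.sum_nonneg fun i _ => Real.rpow_nonneg (ha i) _) hH2
          (by positivity)
    _ = (∑ i, a i ^ 4 / N i ^ (2 - ε)) * (∑ i, N i) ^ (2 - ε) := by
        rw [Real.mul_rpow (Real.rpow_nonneg hX _) (Real.rpow_nonneg hY _),
          ← Real.rpow_mul hX, ← Real.rpow_mul hY]
        have e1 : 1 / (4 / p) * (4 / p) = 1 := by field_simp
        have e2 : 1 / (4 / (4 - p)) * (4 / p) = 2 - ε := by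
          have : (4 - p) ≠ 0 := by linarith
          have e3 : 2 - ε = (4 - p) / p := by rw [← hprel]; field_simp
          rw [e3]; field_simp
        rw [e1, e2, Real.rpow_one]
    _ = _ := mul_comm _ _

/-- **Improved Young with weights** for `Q4`. -/
theorem improved_young_weights_Q4 (hs : Sep s ρ) (a N : ι → ℝ) (ha : ∀ i, 0 ≤ a i)
    (hN : ∀ i, 0 ≤ N i) (hNa : ∀ i, N i = 0 → a i = 0) {c ε : ℝ} (hc : 0 < c) (hc1 : c ≤ (1 / 160000 : ℝ) ^ 3 / 300)
    (hε : 0 ≤ ε) (hε' : ε ≤ c / Real.log (Fintype.card ι + 2)) :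
    Q4 s ρ a a a a ≤ (∑ i, N i) ^ (2 - ε) * ∑ i, a i ^ 4 / N i ^ (2 - ε) := by
  have hlog : 1 / 2 ≤ Real.log ((Fintype.card ι : ℝ) + 2) := by
    have h1 : Real.log 2 ≤ Real.log ((Fintype.card ι : ℝ) + 2) :=
      Real.log_le_log (by norm_num) (by
        have : (0:ℝ) ≤ Fintype.card ι := Nat.cast_nonneg _
        linarith)
    have := Real.log_two_gt_d9
    linarith
  have hcsmall : c ≤ 1 / 1000 := hc1.trans (by norm_num)
  have hε1 : ε ≤ 1 / 100 := by
    refine hε'.trans ?_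
    rw [div_le_iff₀ (by linarith)]; linarith
  have h3 : 0 < 3 - ε := by linarith
  have hp : (4 : ℝ) / 3 ≤ 4 / (3 - ε) := by
    rw [div_le_div_iff₀ (by norm_num) h3]; linarith
  have hp' : 4 / (3 - ε) ≤ 4 / 3 + ε := by
    rw [div_le_iff₀ h3]; nlinarith
  refine (improved_young_Q4 hs a ha hc hc1 hp (hp'.trans (by linarith))).trans ?_
  exact holder_weights a N ha hN hNa hε (by linarith) rfl

/-- **Improved Young with weights**, explicit form. -/
theorem improved_young_weights : ∃ c : ℝ, 0 < c ∧ ∀ (ι : Type) [Fintype ι] (s : ι → ℝ) (ρ : ℝ),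
    0 ≤ ρ → (∀ i j, i ≠ j → 3 * ρ ≤ |s i - s j|) → (∀ i j, i ≠ j → s i ≠ s j) →
    ∀ (a N : ι → ℝ), (∀ i, 0 ≤ a i) → (∀ i, 0 < N i) → ∀ ε : ℝ, 0 ≤ ε →
    ε ≤ c / Real.log (Fintype.card ι + 2) →
    ∑ i, ∑ j, ∑ k, ∑ l, (if |s i + s j - s k - s l| ≤ ρ then a i * a j * a k * a l else 0) ≤
      (∑ i, N i) ^ (2 - ε) * ∑ i, a i ^ 4 / N i ^ (2 - ε) := by
  refine ⟨(1 / 160000 : ℝ) ^ 3 / 300, by norm_num, ?_⟩
  intro ι _ s ρ hρ hsep hinj a N ha hN ε hε hε'
  have hs : Sep s ρ := ⟨hρ, hsep, hinj⟩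
  refine le_trans (le_of_eq ?_)
    (improved_young_weights_Q4 hs a N ha (fun i => (hN i).le)
      (fun i h => absurd h (hN i).ne') (by norm_num) le_rfl hε hε')
  unfold Q4
  refine Finset.sum_congr rfl fun i _ => Finset.sum_congr rfl fun j _ =>
    Finset.sum_congr rfl fun k _ => Finset.sum_congr rfl fun l _ => ?_
  by_cases h : |s i + s j - s k - s l| ≤ ρ
  · rw [if_pos h, if_pos (show Rel s ρ i j k l from h)]
  · rw [if_neg h, if_neg (show ¬ Rel s ρ i j k l from h)]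

/-- **Improved Young with gauges** for `Q4` (form Y3): `M i = 0` allowed where `a i = 0`. -/
theorem improved_young_gauge_Q4 (hs : Sep s ρ) (a M : ι → ℝ) (ha : ∀ i, 0 ≤ a i)
    (hM : ∀ i, 0 ≤ M i) (hMa : ∀ i, M i = 0 → a i = 0) {c β : ℝ} (hc : 0 < c)
    (hc1 : c ≤ (1 / 160000 : ℝ) ^ 3 / 300)
    (hβ : 1 - c / Real.log (Fintype.card ι + 2) / 2 ≤ β) (hβ' : β ≤ 1) :
    Q4 s ρ a a a a ≤ (∑ i, M i ^ (1 / β)) ^ (2 * β) * ∑ i, a i ^ 4 / M i ^ 2 := by
  have hlog : 1 / 2 ≤ Real.log ((Fintype.card ι : ℝ) + 2) := by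
    have h1 : Real.log 2 ≤ Real.log ((Fintype.card ι : ℝ) + 2) :=
      Real.log_le_log (by norm_num) (by
        have : (0:ℝ) ≤ Fintype.card ι := Nat.cast_nonneg _
        linarith)
    have := Real.log_two_gt_d9
    linarith
  have hcsmall : c ≤ 1 / 1000 := hc1.trans (by norm_num)
  have hβ1 : c / Real.log (Fintype.card ι + 2) ≤ 1 / 100 := by
    rw [div_le_iff₀ (by linarith)]; linarith
  have hβ0 : 0 < β := by linarith
  have h := improved_young_weights_Q4 hs a (fun i => M i ^ (1 / β)) ha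
    (fun i => Real.rpow_nonneg (hM i) _)
    (fun i h0 => hMa i ((Real.rpow_eq_zero (hM i) (by positivity)).mp h0))
    (ε := 2 - 2 * β) hc hc1 (by linarith) (by linarith)
  refine h.trans (le_of_eq ?_)
  have e1 : 2 - (2 - 2 * β) = 2 * β := by ring
  rw [e1]
  congr 1
  refine Finset.sum_congr rfl fun i _ => ?_
  rw [← Real.rpow_mul (hM i)]
  have e2 : 1 / β * (2 * β) = ((2 : ℕ) : ℝ) := by field_simp; norm_num
  rw [e2, Real.rpow_natCast]

/-- **Improved Young with gauges**, explicit form (Y3). -/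
theorem improved_young_gauge : ∃ c : ℝ, 0 < c ∧ ∀ (ι : Type) [Fintype ι] (s : ι → ℝ) (ρ : ℝ),
    0 ≤ ρ → (∀ i j, i ≠ j → 3 * ρ ≤ |s i - s j|) → (∀ i j, i ≠ j → s i ≠ s j) →
    ∀ (a M : ι → ℝ), (∀ i, 0 ≤ a i) → (∀ i, 0 ≤ M i) → (∀ i, M i = 0 → a i = 0) →
    ∀ β : ℝ, 1 - c / Real.log (Fintype.card ι + 2) ≤ β → β ≤ 1 →
    ∑ i, ∑ j, ∑ k, ∑ l, (if |s i + s j - s k - s l| ≤ ρ then a i * a j * a k * a l else 0) ≤
      (∑ i, M i ^ (1 / β)) ^ (2 * β) * ∑ i, a i ^ 4 / M i ^ 2 := by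
  refine ⟨(1 / 160000 : ℝ) ^ 3 / 300 / 2, by norm_num, ?_⟩
  intro ι _ s ρ hρ hsep hinj a M ha hM hMa β hβ hβ'
  have hs : Sep s ρ := ⟨hρ, hsep, hinj⟩
  refine le_trans (le_of_eq ?_)
    (improved_young_gauge_Q4 hs a M ha hM hMa (c := (1 / 160000 : ℝ) ^ 3 / 300)
      (by norm_num) le_rfl (by rw [div_right_comm]; exact hβ) hβ')
  unfold Q4
  refine Finset.sum_congr rfl fun i _ => Finset.sum_congr rfl fun j _ =>
    Finset.sum_congr rfl fun k _ => Finset.sum_congr rfl fun l _ => ?_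
  by_cases h : |s i + s j - s k - s l| ≤ ρ
  · rw [if_pos h, if_pos (show Rel s ρ i j k l from h)]
  · rw [if_neg h, if_neg (show ¬ Rel s ρ i j k l from h)]

end Vale.Agent.P112.H22
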