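import Vale.Agent.P112.H22.Cand
import Vale.Agent.P112.G.R2

/-!
# [GAIN-ARC]: the counting function and the arc hypothesis of `[GAIN]`. Exact statement

`AO (F.E i) (F.s i) (1/2) (2 H0) z` are the active unit offsets of the tree `i` in the window of
height `2 H0` around `z`. `N0` is the occupancy (`2 ^ (-a) H0`).
-/

open MeasureTheory Set
open scoped ENNReal

noncomputable section

namespace Vale.Agent.P112.H22.ArcG

open Vale.Agent.P112.T Vale.Agent.P112.F30 Vale.Agent.P112.R2 Vale.Agent.P112.H22.Cand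

/-- every tree of `P` has at least `N0` active offsets in the window of `z` -/
def Occ (F : Tr) (H0 : ℝ) (N0 : ℕ) (z : ℝ × ℝ) (P : Finset F.ι) : Prop :=
  ∀ i ∈ P, N0 ≤ (AO (F.E i) (F.s i) (1 / 2) (2 * H0) z).ncard

/-- the data of `[GAIN-ARC]` -/
structure Dat (C : ℕ) (u : ℝ × ℝ → ℝ) (ε : ℝ) (E0 : Set (ℝ × ℝ)) (n ν : ℕ) (F : Tr)
    (A w Q H0 : ℝ) (N0 : ℕ) : Prop where
  field : Field u
  ε0 : 0 ≤ ε
  ε1 : C * ε ≤ 1
  lip : ∀ x y y', |u (x, y) - u (x, y')| ≤ ε * |y - y'|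
  E0m : MeasurableSet E0
  E0b : ∃ r : ℝ, ∀ z ∈ E0, |z.1| ≤ r ∧ |z.2| ≤ r
  A1 : 1 ≤ A
  ok : F.Ok u (Pd u E0 4 n ν) A w
  sep : F.SepP Q (w + Q)
  H0A : C * A * 2 ^ ν ≤ H0
  QH0 : C * A * 2 ^ ν * H0 ≤ Q
  N01 : 1 ≤ N0

/-- (ARC-1) the counting function -/
def StCount : Prop := ∃ C : ℕ, 1 ≤ C ∧ ∀ (u : ℝ × ℝ → ℝ) (ε : ℝ) (E0 : Set (ℝ × ℝ)) (n ν : ℕ)
  (F : Tr) (A w Q H0 : ℝ) (N0 : ℕ), Dat C u ε E0 n ν F A w Q H0 N0 →
  ∃ Φ : ℝ × ℝ → ℝ≥0∞, Measurable Φ ∧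
    ∫⁻ z, Φ z ^ 2 ≤ ENNReal.ofReal (C * (A * 2 ^ ν) ^ C * (H0 / N0)) * volume E0 ∧
    ∀ z, ∀ P : Finset F.ι, Occ F H0 N0 z P → (P.card : ℝ≥0∞) ≤ Φ z

/-- (ARC-2) the arcs -/
def StArcs : Prop := ∃ C : ℕ, 1 ≤ C ∧ ∀ (u : ℝ × ℝ → ℝ) (ε : ℝ) (E0 : Set (ℝ × ℝ)) (n ν : ℕ)
  (F : Tr) (A w Q H0 : ℝ) (N0 : ℕ), Dat C u ε E0 n ν F A w Q H0 N0 →
  ∀ (m : ℕ) (H1 : ℝ), 1 ≤ H1 → C * A * 2 ^ ν * H0 * H1 ≤ Q → C * ε * H1 ≤ 1 →
  ∃ Bad : Set (ℝ × ℝ), MeasurableSet Bad ∧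
    volume Bad ≤ ENNReal.ofReal (C * (A * 2 ^ ν) ^ C * (H0 / N0)) *
      (1 / 2) ^ (m / (C * 2 ^ ν)) * volume E0 ∧
    ∀ z, z ∉ Bad → ∀ P : Finset F.ι, Occ F H0 N0 z P → H646.Arc m H1 F.s P

/-- pairs seen from one point are `Q`-separated -/
theorem pp_of_sepP {F : Tr} {u : ℝ × ℝ → ℝ} {P : ℕ → Set (ℝ × ℝ)} {A w Q Y c0 : ℝ}
    (hok : F.Ok u P A w) (hsep : F.SepP Q (w + Q)) (hc0 : 0 ≤ c0) (hc1 : c0 ≤ 1) (hQ0 : 0 ≤ Q)
    (hYQ : 2 * Y + Q * c0 ≤ Q) (z : ℝ × ℝ) {i i' : F.ι} (hii : i ≠ i') :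
    PP (F.E i) (F.E i') (F.s i) (F.s i') c0 Y Q z := by
  -- one ordered case
  have key : ∀ (a a' : F.ι), a ≠ a' → ∀ (j j' : ℕ) (z1 z2 : ℝ × ℝ), j' ≤ j →
      Sn (F.E a) (F.s a) c0 Y j z1 z → Sn (F.E a') (F.s a') c0 Y j' z2 z →
      Q * 2 ^ j ≤ |F.s a - F.s a'| := by
    intro a a' haa j j' z1 z2 hj h1 h2
    by_contra hlt
    push Not at hlt
    have h2j : (0 : ℝ) < 2 ^ j := by positivity
    have h2j' : (0 : ℝ) < 2 ^ j' := by positivity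
    have hpow : (2 : ℝ) ^ j' ≤ 2 ^ j := pow_le_pow_right₀ (by norm_num) hj
    have hx1 : |z1.1 - z.1| ≤ c0 / 2 ^ j' := by
      refine h1.2.1.trans ?_
      gcongr
    have hx : |z1.1 - z2.1| ≤ 4 / 2 ^ j' := by
      have e : z1.1 - z2.1 = (z1.1 - z.1) - (z2.1 - z.1) := by ring
      rw [e]
      refine (abs_sub _ _).trans ?_
      calc |z1.1 - z.1| + |z2.1 - z.1| ≤ c0 / 2 ^ j' + c0 / 2 ^ j' := add_le_add hx1 h2.2.1
        _ ≤ 1 / 2 ^ j' + 1 / 2 ^ j' := by gcongr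
        _ ≤ 4 / 2 ^ j' := by
            rw [← add_div]; gcongr; norm_num
    have hoff2 := hok.line a' j' z2 h2.1
    have hoff : |F.off a' z1| ≤ w + Q := by
      have e : F.off a' z1 = F.off a' z2 - ((z2.2 - F.s a' * z2.1) - (z.2 - F.s a' * z.1)) +
          ((z1.2 - F.s a * z1.1) - (z.2 - F.s a * z.1)) +
          (F.s a - F.s a') * (z1.1 - z.1) := by
        unfold Tr.off; ring
      rw [e]
      have h3 : |(F.s a - F.s a') * (z1.1 - z.1)| ≤ Q * c0 := by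
        rw [abs_mul]
        calc |F.s a - F.s a'| * |z1.1 - z.1| ≤ (Q * 2 ^ j) * (c0 / 2 ^ j) := by
              gcongr
              exact h1.2.1
          _ = Q * c0 := by field_simp
      have h4 := h1.2.2
      have h5 := h2.2.2
      have h6 : |F.off a' z2 - ((z2.2 - F.s a' * z2.1) - (z.2 - F.s a' * z.1))| ≤ w + Y :=
        (abs_sub _ _).trans (add_le_add hoff2 h5)
      have h7 := abs_add_le (F.off a' z2 - ((z2.2 - F.s a' * z2.1) - (z.2 - F.s a' * z.1)) +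
        ((z1.2 - F.s a * z1.1) - (z.2 - F.s a * z.1))) ((F.s a - F.s a') * (z1.1 - z.1))
      have h8 := abs_add_le (F.off a' z2 - ((z2.2 - F.s a' * z2.1) - (z.2 - F.s a' * z.1)))
        ((z1.2 - F.s a * z1.1) - (z.2 - F.s a * z.1))
      linarith
    have := hsep a a' j j' haa hj z1 h1.1 z2 h2.1 hx hoff
    linarith
  intro j z1 j' z2 h1 h2
  rcases le_total j' j with hj | hj
  · rw [max_eq_left hj]
    exact key i i' hii j j' z1 z2 hj h1 h2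
  · rw [max_eq_right hj, abs_sub_comm]
    exact key i' i hii.symm j' j z2 z1 hj h2 h1

end Vale.Agent.P112.H22.ArcG
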