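import Vale.Agent.P112.H22.ArcDefs
import Vale.Agent.P112.H597.Exc3
import Vale.Agent.P112.H724.FD2

/-!
# [GAIN-ARC], second half: `StArcs`
-/

open MeasureTheory Set
open scoped ENNReal

noncomputable section

namespace Vale.Agent.P112.H22.ArcG

open Vale.Agent.P112.T Vale.Agent.P112.F30 Vale.Agent.P112.R2 Vale.Agent.P112.H22.Cand
open Vale.Agent.P112.H22.TopSys Vale.Agent.P112.H295 Vale.Agent.P112.H310
open Vale.Agent.P112.H597

theorem Arc_mono {α : Type} {m m' : ℕ} (h : m ≤ m') {H1 : ℝ} {s : α → ℝ} {P : Finset α}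
    (hA : H646.Arc m H1 s P) : H646.Arc m' H1 s P := by
  intro P' hP' hc
  obtain ⟨k, hk, c, hc'⟩ := hA P' hP' hc
  refine ⟨k, hk, fun r => if h' : (r : ℕ) < m then c ⟨r, h'⟩ else 0, fun i hi hik => ?_⟩
  obtain ⟨r, hr⟩ := hc' i hi hik
  refine ⟨⟨r, lt_of_lt_of_le r.2 h⟩, ?_⟩
  simpa using hr

/-- the tops of one level, packaged: constants -/
theorem tops_pack : ∃ C : ℝ, 1 ≤ C ∧ ∀ (u : ℝ × ℝ → ℝ), Field u → ∀ E : Set (ℝ × ℝ),
    MeasurableSet E → (∃ r : ℝ, ∀ z ∈ E, |z.1| ≤ r ∧ |z.2| ≤ r) → ∀ n ν : ℕ,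
    ∃ (κ : Type) (_ : Fintype κ) (M : Tops κ),
      ENNReal.ofReal (∑ m, (1 / 2) ^ M.j m) ≤ ENNReal.ofReal (2 ^ (ν + 1)) * volume E ∧
      HasTile u E ν M ∧
      (∀ j, ∀ z ∈ Pd u E 4 n ν j, ∃ m, Ab u M (C * 2 ^ ν) z j m) := by
  obtain ⟨C, hC, h⟩ := H724.stFD2 4
  refine ⟨4 * C, by linarith, fun u hu E hE hb n ν => ?_⟩
  have h2 : (1 : ℝ) ≤ 2 ^ (ν + 1) := one_le_pow₀ (by norm_num)
  obtain ⟨κ, _, M, h3, _, h5, _, h7⟩ := h u hu E hE hb n ν (2 ^ (ν + 1)) 1 le_rfl h2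
    (le_self_pow₀ h2 (by norm_num))
  refine ⟨κ, inferInstance, M, h3, h5, fun j z hz => ?_⟩
  obtain ⟨m, a1, a2, a3, a4⟩ := h7 j z hz
  have e : (2 : ℝ) ^ (ν + 1) = 2 * 2 ^ ν := by ring
  have h1 : (1 : ℝ) ≤ 2 ^ ν := one_le_pow₀ (by norm_num)
  refine ⟨m, a1, a2, a3.trans ?_, a4.trans ?_⟩
  · rw [e]
    have h8 : 0 ≤ C * 2 ^ ν * 2 ^ j := by positivity
    nlinarith
  · rw [e]
    nlinarith

variable {κ : Type} [Fintype κ]

/-- `S` is the system of the tops `M`, height `w` -/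
structure IsSys (S : SysV κ) (M : Tops κ) (w ε : ℝ) (ν : ℕ) : Prop where
  w_eq : S.w = w
  A_eq : S.A = 5
  δ_eq : S.δ = (1 / 2) ^ (ν + 1)
  ε_eq : S.ε = ε
  k_eq : S.k = M.j
  s_eq : S.s = M.s
  m_eq : ∀ t, S.m t = q 0 (M.j t) (M.x t)
  line_eq : ∀ t x, S.line t x = M.line t x

omit [Fintype κ] in
theorem exists_sys {u : ℝ × ℝ → ℝ} (hu : Measurable u) {ε : ℝ} (hε0 : 0 ≤ ε) (hε1 : ε ≤ 1 / 16)
    (hLip : ∀ x y y', |u (x, y) - u (x, y')| ≤ ε * |y - y'|) {E : Set (ℝ × ℝ)}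
    (hE : MeasurableSet E) {ν : ℕ} (M : Tops κ) (hM : HasTile u E ν M) {w : ℝ}
    (hw : 1 ≤ w) : ∃ S : SysV κ, IsSys S M w ε ν :=
  ⟨topSys u hu hε0 hε1 hLip hE M hM hw, rfl, rfl, rfl, rfl, rfl, rfl, fun _ => rfl,
    fun t x => (TopSys.line_eq M t x).symm⟩

/-- the bad points -/
def BadS (S : SysV κ) (η lam : ℝ) (m' c : ℕ) : Set (ℝ × ℝ) :=
  {z | ∃ g : Finset κ, c ≤ g.card ∧ ∀ t ∈ g, z ∈ Exc3 S 3 η lam m' t}

theorem BadS_meas (S : SysV κ) (η lam : ℝ) (m' c : ℕ) : MeasurableSet (BadS S η lam m' c) := by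
  classical
  have : BadS S η lam m' c = ⋃ g ∈ {g : Finset κ | c ≤ g.card}, ⋂ t ∈ g, Exc3 S 3 η lam m' t := by
    ext z
    simp only [BadS, mem_ofPred_eq, mem_iUnion, mem_iInter, exists_prop]
  rw [this]
  refine MeasurableSet.biUnion (Set.to_countable _) fun g _ => ?_
  exact Finset.measurableSet_biInter g fun t _ => exc3_meas S 3 η lam m' t

/-- measure of the bad set -/
theorem BadS_vol {S : SysV κ} {M : Tops κ} {w ε : ℝ} {ν : ℕ} (hS : IsSys S M w ε ν) (hw : 1 ≤ w)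
    {V : ℝ≥0∞} (hsum : ENNReal.ofReal (∑ m, (1 / 2) ^ M.j m) ≤ ENNReal.ofReal (2 ^ (ν + 1)) * V)
    {η lam : ℝ} (hη0 : 0 < η) (hη1 : η ≤ 1 / 4) (hlam0 : 0 < lam) (hlamε : lam * ε ≤ 1)
    (m' c : ℕ) {x : ℝ} (hx0 : 0 < x) (hxc : x ≤ c) :
    volume (BadS S η lam m' c) ≤ ENNReal.ofReal (840 * 2 ^ ν * (w / x)) *
      (1 / 2) ^ (m' / (288 * 2 ^ ν)) * V := by
  have hK0 : 0 < 288 * 2 ^ ν := by positivity
  have hKδ : 48 * 3 ≤ S.δ * ((288 * 2 ^ ν : ℕ) : ℝ) := by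
    rw [hS.δ_eq]
    push_cast
    have : ((1 : ℝ) / 2) ^ (ν + 1) * (288 * 2 ^ ν) = 144 := by
      rw [one_div, inv_pow, pow_succ]; field_simp; norm_num
    rw [this]; norm_num
  have h1 := bad3_vol S (B := 3) (by norm_num) hη0 hη1 hlam0 (by rw [hS.ε_eq]; exact hlamε)
    hK0 hKδ m' c
  have hvR : ∑ t, volume.real (S.R t) = 2 * w * ∑ t, (1 / 2 : ℝ) ^ M.j t := by
    rw [Finset.mul_sum]
    refine Finset.sum_congr rfl fun t _ => ?_
    rw [S.vr_R, hS.w_eq]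
    unfold SysV.l
    rw [hS.k_eq, show ((2 : ℝ)⁻¹) = 1 / 2 by norm_num]; ring
  have h2 : ENNReal.ofReal (70 * 3 * ∑ t, volume.real (S.R t)) ≤
      ENNReal.ofReal (840 * w * 2 ^ ν) * V := by
    rw [hvR, show (70 * 3 * (2 * w * ∑ t, (1 / 2 : ℝ) ^ M.j t)) =
      (420 * w) * ∑ t, (1 / 2 : ℝ) ^ M.j t by ring, ENNReal.ofReal_mul (by positivity)]
    calc ENNReal.ofReal (420 * w) * ENNReal.ofReal (∑ t, (1 / 2 : ℝ) ^ M.j t)
        ≤ ENNReal.ofReal (420 * w) * (ENNReal.ofReal (2 ^ (ν + 1)) * V) := by gcongr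
      _ = _ := by
          rw [← mul_assoc, ← ENNReal.ofReal_mul (by positivity)]
          congr 2
          rw [pow_succ]; ring
  have h3 : ENNReal.ofReal x ≤ (c : ℝ≥0∞) := by
    rw [← ENNReal.ofReal_natCast]; exact ENNReal.ofReal_le_ofReal hxc
  have h4 : ENNReal.ofReal x * volume (BadS S η lam m' c) ≤
      (1 / 2) ^ (m' / (288 * 2 ^ ν)) * (ENNReal.ofReal (840 * w * 2 ^ ν) * V) :=
    calc ENNReal.ofReal x * volume (BadS S η lam m' c) ≤ c * volume (BadS S η lam m' c) := by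
          gcongr
      _ ≤ _ := h1
      _ ≤ _ := by gcongr
  calc volume (BadS S η lam m' c) = ENNReal.ofReal x⁻¹ *
        (ENNReal.ofReal x * volume (BadS S η lam m' c)) := by
        rw [← mul_assoc, ← ENNReal.ofReal_mul (by positivity), inv_mul_cancel₀ hx0.ne',
          ENNReal.ofReal_one, one_mul]
    _ ≤ ENNReal.ofReal x⁻¹ * ((1 / 2) ^ (m' / (288 * 2 ^ ν)) *
        (ENNReal.ofReal (840 * w * 2 ^ ν) * V)) := by gcongr
    _ = (ENNReal.ofReal x⁻¹ * ENNReal.ofReal (840 * w * 2 ^ ν)) *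
        (1 / 2) ^ (m' / (288 * 2 ^ ν)) * V := by ring
    _ = _ := by
        rw [← ENNReal.ofReal_mul (by positivity)]
        congr 3
        rw [div_eq_mul_inv]; ring

/-- the arcs at one good point -/
theorem arcs_at {S : SysV κ} {M : Tops κ} {w ε : ℝ} {ν : ℕ} (hS : IsSys S M w ε ν)
    {u : ℝ × ℝ → ℝ} {ι : Type} {E : ι → ℕ → Set (ℝ × ℝ)} {s : ι → ℝ} {A R Q H1 : ℝ} {z : ℝ × ℝ}
    (hR0 : 0 ≤ R) (hA0 : 0 ≤ A) (hQ : 0 < Q) (hH1 : 1 ≤ H1)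
    (hslope : ∀ i j, ∀ z' ∈ E i j, |u z' - s i| ≤ A * 2 ^ j)
    (htop : ∀ i j, ∀ z' ∈ E i j, ∃ m, Ab u M R z' j m)
    (hρ : R + (R + A) * (1 / 2) ≤ w) (hQ1 : 8 * (R + A) * H1 ≤ Q) (hQ2 : 2432 * w * H1 ≤ Q)
    {m' c N0 : ℕ} (hc : (c : ℝ) < N0 / (2 * (R + (R + A) * (1 / 2)) + 3) + 1)
    (P : Finset ι)
    (hPP : ∀ a b, a ≠ b → PP (E a) (E b) (s a) (s b) (1 / 2) (2 * w) Q z)
    (hocc : ∀ i ∈ P, N0 ≤ (AO (E i) (s i) (1 / 2) (2 * w) z).ncard)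
    (hz : z ∉ BadS S (1 / (16 * H1)) (2048 * H1) m' c) : H646.Arc (2 * m') H1 s P := by
  classical
  have hcand : ∀ i ∈ P, ∃ t : κ, Rel u M R (E i) (s i) (1 / 2) (2 * w) z t ∧
      z ∉ Exc3 S 3 (1 / (16 * H1)) (2048 * H1) m' t := by
    intro i hi
    obtain ⟨g, hg1, hg2⟩ := cand (u := u) (M := M) (R := R) (A := A) (c0 := 1 / 2)
      (Y := 2 * w) (E := E i) (s := s i) (z := z) (by norm_num) hA0 hR0
      (hslope i) (htop i)
    have h2 : (N0 : ℝ) ≤ (2 * (R + (R + A) * (1 / 2)) + 3) * g.card :=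
      le_trans (by exact_mod_cast hocc i hi) hg2
    have h4 : (N0 : ℝ) / (2 * (R + (R + A) * (1 / 2)) + 3) ≤ g.card := by
      rw [div_le_iff₀ (by positivity)]
      linarith
    have h5 : (c : ℝ) < g.card + 1 := by linarith
    have h3 : c ≤ g.card := by
      have : c < g.card + 1 := by exact_mod_cast h5
      omega
    obtain ⟨t, ht1, ht2⟩ := exists_good3 (S := S) (c := c) (z := z) hz h3
    exact ⟨t, hg1 t ht1, ht2⟩
  rcases isEmpty_or_nonempty κ with hκ | hκ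
  · have hPe : P = ∅ := by
      by_contra h
      obtain ⟨i, hi⟩ := Finset.nonempty_iff_ne_empty.2 h
      obtain ⟨t, _⟩ := hcand i hi
      exact hκ.elim t
    intro P' hP' hc'
    rw [hPe, Finset.subset_empty] at hP'
    rw [hP'] at hc'
    simp at hc'
  have hcand' : ∀ i, ∃ t : κ, i ∈ P → Rel u M R (E i) (s i) (1 / 2) (2 * w) z t ∧
      z ∉ Exc3 S 3 (1 / (16 * H1)) (2048 * H1) m' t := by
    intro i
    by_cases hi : i ∈ P
    · obtain ⟨t, ht⟩ := hcand i hi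
      exact ⟨t, fun _ => ht⟩
    · exact ⟨Classical.arbitrary κ, fun h => absurd h hi⟩
  choose t ht using hcand'
  have hclose : ∀ a ∈ P, ∀ b ∈ P, a ≠ b →
      |s a - M.s (t a)| ≤ (R + A) / Q * |s a - s b| ∧ Q * 2 ^ M.j (t a) ≤ |s a - s b| := by
    intro a ha b hb hab
    exact rel_close hR0 hA0 hQ (hslope a) (hPP a b hab) (ht a ha).1 (ht b hb).1
  have hl : ∀ a, S.l (t a) = ((2 : ℝ) ^ M.j (t a))⁻¹ := by
    intro a
    unfold SysV.l
    rw [hS.k_eq, inv_pow]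
  refine arc_of_rep3 S P s t (B := 3) (η := 1 / (16 * H1)) (lam := 2048 * H1)
    (e := (R + A) / Q) (by positivity) (by positivity) hH1 ?_ ?_ (fun a ha => (ht a ha).2) ?_
    (fun a ha b hb hab => ?_) ?_
  · have h1 : 8 * (1 / (16 * H1)) * H1 = 1 / 2 := by field_simp; norm_num
    have h2 : 4 * ((R + A) / Q) * H1 ≤ 1 / 2 := by
      rw [mul_div_assoc', div_mul_eq_mul_div, div_le_iff₀ hQ]
      linarith
    nlinarith
  · intro a ha
    obtain ⟨x, hx1, hx2⟩ := rel_x (by norm_num) (ht a ha).1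
    have h1 := rel_off (hslope a) (ht a ha).1
    refine ⟨?_, ?_⟩
    · refine mem_J3 (x := x) ?_ ?_
      · rw [hS.k_eq, hS.m_eq]
        exact (q_eq_D _ _ _).1 hx1
      · rw [abs_sub_comm]
        refine hx2.trans ?_
        rw [hS.k_eq]
        have : (0 : ℝ) ≤ (2 : ℝ)⁻¹ ^ M.j (t a) := by positivity
        linarith
    · rw [hS.line_eq, hS.w_eq]
      refine h1.trans ?_
      linarith
  · intro a _
    rw [hl]
    have h1 : ((2 : ℝ) ^ M.j (t a))⁻¹ ≤ 1 := inv_le_one_of_one_le₀ (one_le_pow₀ (by norm_num))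
    have h2 : 1 / (16 * H1) * (2048 * H1) = 128 := by field_simp; norm_num
    rw [h2]; linarith
  · rw [hS.s_eq]; exact (hclose a ha b hb hab).1
  · intro a ha b hb hab
    have h1 := (hclose a ha b hb hab).2
    rw [hS.A_eq, hS.w_eq, hl, div_inv_eq_mul]
    have h2 : 0 < (2 : ℝ) ^ M.j (t a) := by positivity
    rw [div_mul_eq_mul_div, le_div_iff₀ (by positivity), one_mul]
    calc 16 * ((5 + 3 * 3 / 2) * w * 2 ^ M.j (t a)) * (16 * H1)
        = (2432 * w * H1) * 2 ^ M.j (t a) := by ring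
      _ ≤ Q * 2 ^ M.j (t a) := by gcongr
      _ ≤ _ := h1

/-- the inequalities between the constants -/
theorem consts {C1 C A T H0 Q : ℝ} (hC1 : 1 ≤ C1) (h1 : 3000 ≤ C) (h2 : 1000 * (12 * C1 + 4) ≤ C)
    (hA : 1 ≤ A) (hT : 1 ≤ T) (hH0 : C * A * T ≤ H0) (hQ : C * A * T * H0 ≤ Q) :
    1 ≤ H0 ∧ 0 < Q ∧ C1 * T + (C1 * T + A) * (1 / 2) ≤ H0 ∧
      2 * (C1 * T + (C1 * T + A) * (1 / 2)) + 3 ≤ (3 * C1 + 4) * (A * T) ∧
      2 * (2 * H0) + Q * (1 / 2) ≤ Q ∧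
      (∀ H1 : ℝ, 1 ≤ H1 → C * A * T * H0 * H1 ≤ Q →
        8 * (C1 * T + A) * H1 ≤ Q ∧ 2432 * H0 * H1 ≤ Q) := by
  have hAT : 1 ≤ A * T := by nlinarith
  have hTA : T ≤ A * T := by nlinarith
  have hAA : A ≤ A * T := by nlinarith
  have hC1T : C1 * T ≤ C1 * (A * T) := by gcongr
  have e : C * A * T = C * (A * T) := by ring
  rw [e] at hH0 hQ
  have hC0 : 0 < C := by linarith
  have hCX : C ≤ C * (A * T) := le_mul_of_one_le_right hC0.le hAT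
  have hH1' : 1 ≤ H0 := by linarith
  have hρ : 2 * (C1 * T + (C1 * T + A) * (1 / 2)) + 3 ≤ (3 * C1 + 4) * (A * T) := by nlinarith
  have h3 : (3 * C1 + 4) * (A * T) ≤ C * (A * T) := by
    gcongr; linarith
  have hQ8 : C * H0 ≤ Q := by
    refine le_trans ?_ hQ
    gcongr
  refine ⟨hH1', lt_of_lt_of_le (by positivity) hQ, by linarith, hρ, by nlinarith, ?_⟩
  intro H1 hH1 hQH
  have e2 : C * A * T * H0 * H1 = C * (A * T) * (H0 * H1) := by ring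
  rw [e2] at hQH
  have hHH : 1 ≤ H0 * H1 := by nlinarith
  have hH1H : H1 ≤ H0 * H1 := by nlinarith
  constructor
  · have h8 : 8 * (C1 * T + A) ≤ 8 * (C1 + 1) * (A * T) := by nlinarith
    calc 8 * (C1 * T + A) * H1 ≤ (8 * (C1 + 1) * (A * T)) * (H0 * H1) :=
          mul_le_mul h8 hH1H (by positivity) (by positivity)
      _ ≤ (C * (A * T)) * (H0 * H1) := by
          gcongr
          linarith
      _ ≤ Q := hQH
  · calc 2432 * H0 * H1 = 2432 * (H0 * H1) := by ring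
      _ ≤ (C * (A * T)) * (H0 * H1) := by
          gcongr
          linarith
      _ ≤ Q := hQH

/-- **(ARC-2)** -/
theorem stArcs : StArcs := by
  obtain ⟨C1, hC1, htops⟩ := tops_pack
  obtain ⟨C, hCn⟩ := exists_nat_ge (max 3000 (1000 * (12 * C1 + 4)))
  have hC3000 : (3000 : ℝ) ≤ C := le_trans (le_max_left _ _) hCn
  have hCC1 : 1000 * (12 * C1 + 4) ≤ C := le_trans (le_max_right _ _) hCn
  have hC3000n : 3000 ≤ C := by exact_mod_cast hC3000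
  refine ⟨C, by omega, fun u ε E0 n ν F A w Q H0 N0 d m H1 hH1 hQH1 hεH1 => ?_⟩
  obtain ⟨κ, _, M, hsum, hM, htop⟩ := htops u d.field E0 d.E0m d.E0b n ν
  have hT : (1 : ℝ) ≤ 2 ^ ν := one_le_pow₀ (by norm_num)
  have hA := d.A1
  have hε0 := d.ε0
  obtain ⟨hH0, hQ0, hρ, hρ2, hYQ, hrest⟩ := consts hC1 hC3000 hCC1 hA hT d.H0A d.QH0
  obtain ⟨hQ1, hQ2⟩ := hrest H1 hH1 hQH1
  have hε16 : ε ≤ 1 / 16 := by
    have := d.ε1
    nlinarith
  obtain ⟨S, hS⟩ := exists_sys d.field.meas d.ε0 hε16 d.lip d.E0m M hM hH0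
  set ρ3 : ℝ := 2 * (C1 * 2 ^ ν + (C1 * 2 ^ ν + A) * (1 / 2)) + 3 with hρ3
  have hρ30 : 0 < ρ3 := by positivity
  have hN0 : (1 : ℝ) ≤ N0 := by exact_mod_cast d.N01
  have hx0 : 0 < (N0 : ℝ) / ρ3 := by positivity
  set c : ℕ := ⌈(N0 : ℝ) / ρ3⌉₊ with hc
  have hlamε : 2048 * H1 * ε ≤ 1 := by
    have h1 : 0 ≤ H1 * ε := by positivity
    nlinarith
  have hη1 : 1 / (16 * H1) ≤ (1 : ℝ) / 4 := by
    rw [div_le_div_iff₀ (by positivity) (by norm_num)]; linarith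
  refine ⟨BadS S (1 / (16 * H1)) (2048 * H1) (m / 2) c, BadS_meas _ _ _ _ _, ?_, ?_⟩
  · refine (BadS_vol hS hH0 hsum (by positivity) hη1 (by positivity) hlamε (m / 2) c hx0
      (Nat.le_ceil _)).trans ?_
    have hpow : ((1 : ℝ≥0∞) / 2) ^ (m / 2 / (288 * 2 ^ ν)) ≤ (1 / 2) ^ (m / (C * 2 ^ ν)) := by
      refine pow_le_pow_right_of_le_one' (by
        rw [one_div]; exact ENNReal.inv_le_one.2 (by norm_num)) ?_
      rw [Nat.div_div_eq_div_mul]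
      refine Nat.div_le_div_left ?_ (by positivity)
      rw [← mul_assoc]
      exact Nat.mul_le_mul_right _ (by omega)
    gcongr ENNReal.ofReal ?_ * ?_ * _
    have hX : (1 : ℝ) ≤ A * 2 ^ ν := by nlinarith
    have h5 : (A * 2 ^ ν) * 2 ^ ν ≤ (A * 2 ^ ν) ^ C := by
      calc (A * 2 ^ ν) * 2 ^ ν ≤ (A * 2 ^ ν) * (A * 2 ^ ν) := by
            gcongr
            nlinarith
        _ = (A * 2 ^ ν) ^ 2 := by ring
        _ ≤ (A * 2 ^ ν) ^ C := pow_le_pow_right₀ hX (by omega)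
    calc 840 * 2 ^ ν * (H0 / (N0 / ρ3)) = 840 * 2 ^ ν * ρ3 * (H0 / N0) := by
          rw [div_div_eq_mul_div]; ring
      _ ≤ 840 * 2 ^ ν * ((3 * C1 + 4) * (A * 2 ^ ν)) * (H0 / N0) := by gcongr
      _ = (840 * (3 * C1 + 4)) * ((A * 2 ^ ν) * 2 ^ ν) * (H0 / N0) := by ring
      _ ≤ C * (A * 2 ^ ν) ^ C * (H0 / N0) := by
          gcongr
          linarith
  · intro z hz P hocc
    have h := arcs_at hS (u := u) (E := F.E) (s := F.s) (A := A) (R := C1 * 2 ^ ν) (Q := Q)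
      (H1 := H1) (z := z) (by positivity) (by linarith) hQ0 hH1 d.ok.slope
      (fun i j z' hz' => htop j z' (d.ok.sub i j hz')) hρ hQ1 hQ2 (m' := m / 2) (c := c)
      (N0 := N0) (Nat.ceil_lt_add_one hx0.le) P
      (fun a b hab => pp_of_sepP d.ok d.sep (by norm_num) (by norm_num) hQ0.le hYQ z hab)
      hocc hz
    exact Arc_mono (Nat.mul_div_le m 2) h

end Vale.Agent.P112.H22.ArcG
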