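import Vale.Agent.P112.H22.ArcsG
import Vale.Agent.P112.H646.GainDefs

/-!
# The literal `H646.Gain.StArcs` : off a small set the active tubes are in `m` arcs
-/

open MeasureTheory Set
open scoped ENNReal

noncomputable section

namespace Vale.Agent.P112.H22.GArcs

open Vale.Agent.P112.T Vale.Agent.P112.F30 Vale.Agent.P112.H22.Cand
open Vale.Agent.P112.H22.TopSys Vale.Agent.P112.H295 Vale.Agent.P112.H310
open Vale.Agent.P112.H597 Vale.Agent.P112.H22.ArcG Vale.Agent.P112.H646.Gain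
open Vale.Agent.P112.H8 (Bxs)

variable {κ : Type} [Fintype κ]

/-- the bad points, general dilation -/
def BadB (S : SysV κ) (B η lam : ℝ) (m' c : ℕ) : Set (ℝ × ℝ) :=
  {z | ∃ g : Finset κ, c ≤ g.card ∧ ∀ t ∈ g, z ∈ Exc3 S B η lam m' t}

theorem BadB_meas (S : SysV κ) (B η lam : ℝ) (m' c : ℕ) :
    MeasurableSet (BadB S B η lam m' c) := by
  classical
  have : BadB S B η lam m' c = ⋃ g ∈ {g : Finset κ | c ≤ g.card}, ⋂ t ∈ g, Exc3 S B η lam m' t := by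
    ext z
    simp only [BadB, mem_ofPred_eq, mem_iUnion, mem_iInter, exists_prop]
  rw [this]
  refine MeasurableSet.biUnion (Set.to_countable _) fun g _ => ?_
  exact Finset.measurableSet_biInter g fun t _ => exc3_meas S B η lam m' t

/-- measure of the bad set: `x` times it, `x ≤ c` -/
theorem BadB_vol {S : SysV κ} {M : Tops κ} {w ε : ℝ} {ν : ℕ} (hS : IsSys S M w ε ν) (hw : 1 ≤ w)
    {V : ℝ≥0∞} (hsum : ENNReal.ofReal (∑ m, (1 / 2) ^ M.j m) ≤ ENNReal.ofReal (2 ^ (ν + 1)) * V)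
    {B η lam : ℝ} (hB : 2 ≤ B) (hη0 : 0 < η) (hη1 : η ≤ 1 / 4) (hlam0 : 0 < lam)
    (hlamε : lam * ε ≤ 1) {K : ℕ} (hK0 : 0 < K) (hK : 96 * B * 2 ^ ν ≤ K)
    (m' c : ℕ) {x : ℝ} (hxc : x ≤ c) :
    ENNReal.ofReal x * volume (BadB S B η lam m' c) ≤ ENNReal.ofReal (280 * B * w * 2 ^ ν) *
      (1 / 2) ^ (m' / K) * V := by
  have hKδ : 48 * B ≤ S.δ * (K : ℝ) := by
    rw [hS.δ_eq]
    calc 48 * B = ((1 : ℝ) / 2) ^ (ν + 1) * (96 * B * 2 ^ ν) := by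
          rw [one_div, inv_pow, pow_succ]; field_simp; norm_num
      _ ≤ _ := by gcongr
  have h1 := bad3_vol S (B := B) hB hη0 hη1 hlam0 (by rw [hS.ε_eq]; exact hlamε)
    hK0 hKδ m' c
  have hvR : ∑ t, volume.real (S.R t) = 2 * w * ∑ t, (1 / 2 : ℝ) ^ M.j t := by
    rw [Finset.mul_sum]
    refine Finset.sum_congr rfl fun t _ => ?_
    rw [S.vr_R, hS.w_eq]
    unfold SysV.l
    rw [hS.k_eq, show ((2 : ℝ)⁻¹) = 1 / 2 by norm_num]; ring
  have h2 : ENNReal.ofReal (70 * B * ∑ t, volume.real (S.R t)) ≤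
      ENNReal.ofReal (280 * B * w * 2 ^ ν) * V := by
    rw [hvR, show (70 * B * (2 * w * ∑ t, (1 / 2 : ℝ) ^ M.j t)) =
      (140 * B * w) * ∑ t, (1 / 2 : ℝ) ^ M.j t by ring, ENNReal.ofReal_mul (by positivity)]
    calc ENNReal.ofReal (140 * B * w) * ENNReal.ofReal (∑ t, (1 / 2 : ℝ) ^ M.j t)
        ≤ ENNReal.ofReal (140 * B * w) * (ENNReal.ofReal (2 ^ (ν + 1)) * V) := by gcongr
      _ = _ := by
          rw [← mul_assoc, ← ENNReal.ofReal_mul (by positivity)]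
          congr 2
          rw [pow_succ]; ring
  have h3 : ENNReal.ofReal x ≤ (c : ℝ≥0∞) := by
    rw [← ENNReal.ofReal_natCast]; exact ENNReal.ofReal_le_ofReal hxc
  calc ENNReal.ofReal x * volume (BadB S B η lam m' c) ≤ c * volume (BadB S B η lam m' c) := by
        gcongr
    _ ≤ _ := h1
    _ ≤ (1 / 2) ^ (m' / K) * (ENNReal.ofReal (280 * B * w * 2 ^ ν) * V) := by gcongr
    _ = _ := by ring

/-- the arcs at one good point; window `(1/4, 6 w)` -/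
theorem arcs_at' {S : SysV κ} {M : Tops κ} {w ε : ℝ} {ν : ℕ} (hS : IsSys S M w ε ν)
    {u : ℝ × ℝ → ℝ} {ι : Type} {E : ι → ℕ → Set (ℝ × ℝ)} {s : ι → ℝ} {A R B Q H1 : ℝ} {z : ℝ × ℝ}
    (hR0 : 0 ≤ R) (hA0 : 0 ≤ A) (hQ : 0 < Q) (hH1 : 1 ≤ H1)
    (hslope : ∀ i j, ∀ z' ∈ E i j, |u z' - s i| ≤ A * 2 ^ j)
    (hρ : 6 * w + (R + (R + A) * (1 / 4)) ≤ B * w) (hQ1 : 8 * (R + A) * H1 ≤ Q)
    (hQ2 : 256 * (5 + 3 * B / 2) * w * H1 ≤ Q)
    {m' c : ℕ} (P : Finset ι)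
    (hPP : ∀ a ∈ P, ∀ b ∈ P, a ≠ b → PP (E a) (E b) (s a) (s b) (1 / 4) (6 * w) Q z)
    (g : ι → Finset κ) (hg : ∀ i ∈ P, ∀ t ∈ g i, Cand.Rel u M R (E i) (s i) (1 / 4) (6 * w) z t)
    (hgc : ∀ i ∈ P, c ≤ (g i).card)
    (hz : z ∉ BadB S B (1 / (16 * H1)) (2048 * H1) m' c) : H646.Arc (2 * m') H1 s P := by
  classical
  have hcand : ∀ i ∈ P, ∃ t : κ, Cand.Rel u M R (E i) (s i) (1 / 4) (6 * w) z t ∧
      z ∉ Exc3 S B (1 / (16 * H1)) (2048 * H1) m' t := by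
    intro i hi
    obtain ⟨t, ht1, ht2⟩ := exists_good3 (S := S) (c := c) (z := z) hz (hgc i hi)
    exact ⟨t, hg i hi t ht1, ht2⟩
  rcases isEmpty_or_nonempty κ with hκ | hκ
  · have hPe : P = ∅ := by
      by_contra h
      obtain ⟨i, hi⟩ := Finset.nonempty_iff_ne_empty.2 h
      obtain ⟨t, _⟩ := hcand i hi
      exact hκ.elim t
    intro P' hP' hc'
    rw [hPe, Finset.subset_empty] at hP'
    rw [hP'] at hc'
    simp at hc'
  have hcand' : ∀ i, ∃ t : κ, i ∈ P → Cand.Rel u M R (E i) (s i) (1 / 4) (6 * w) z t ∧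
      z ∉ Exc3 S B (1 / (16 * H1)) (2048 * H1) m' t := by
    intro i
    by_cases hi : i ∈ P
    · obtain ⟨t, ht⟩ := hcand i hi
      exact ⟨t, fun _ => ht⟩
    · exact ⟨Classical.arbitrary κ, fun h => absurd h hi⟩
  choose t ht using hcand'
  have hclose : ∀ a ∈ P, ∀ b ∈ P, a ≠ b →
      |s a - M.s (t a)| ≤ (R + A) / Q * |s a - s b| ∧ Q * 2 ^ M.j (t a) ≤ |s a - s b| := by
    intro a ha b hb hab
    exact rel_close hR0 hA0 hQ (hslope a) (hPP a ha b hb hab) (ht a ha).1 (ht b hb).1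
  have hl : ∀ a, S.l (t a) = ((2 : ℝ) ^ M.j (t a))⁻¹ := by
    intro a
    unfold SysV.l
    rw [hS.k_eq, inv_pow]
  refine arc_of_rep3 S P s t (B := B) (η := 1 / (16 * H1)) (lam := 2048 * H1)
    (e := (R + A) / Q) (by positivity) (by positivity) hH1 ?_ ?_ (fun a ha => (ht a ha).2) ?_
    (fun a ha b hb hab => ?_) ?_
  · have h1 : 8 * (1 / (16 * H1)) * H1 = 1 / 2 := by field_simp; norm_num
    have h2 : 4 * ((R + A) / Q) * H1 ≤ 1 / 2 := by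
      rw [mul_div_assoc', div_mul_eq_mul_div, div_le_iff₀ hQ]
      linarith
    nlinarith
  · intro a ha
    obtain ⟨x, hx1, hx2⟩ := rel_x (by norm_num) (ht a ha).1
    have h1 := rel_off (hslope a) (ht a ha).1
    refine ⟨?_, ?_⟩
    · refine mem_J3 (x := x) ?_ ?_
      · rw [hS.k_eq, hS.m_eq]
        exact (q_eq_D _ _ _).1 hx1
      · rw [abs_sub_comm]
        refine hx2.trans ?_
        rw [hS.k_eq]
        have : (0 : ℝ) ≤ (2 : ℝ)⁻¹ ^ M.j (t a) := by positivity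
        linarith
    · rw [hS.line_eq, hS.w_eq]
      exact h1.trans hρ
  · intro a _
    rw [hl]
    have h1 : ((2 : ℝ) ^ M.j (t a))⁻¹ ≤ 1 := inv_le_one_of_one_le₀ (one_le_pow₀ (by norm_num))
    have h2 : 1 / (16 * H1) * (2048 * H1) = 128 := by field_simp; norm_num
    rw [h2]; linarith
  · rw [hS.s_eq]; exact (hclose a ha b hb hab).1
  · intro a ha b hb hab
    have h1 := (hclose a ha b hb hab).2
    rw [hS.A_eq, hS.w_eq, hl, div_inv_eq_mul]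
    have h2 : 0 < (2 : ℝ) ^ M.j (t a) := by positivity
    rw [div_mul_eq_mul_div, le_div_iff₀ (by positivity), one_mul]
    calc 16 * ((5 + 3 * B / 2) * w * 2 ^ M.j (t a)) * (16 * H1)
        = (256 * (5 + 3 * B / 2) * w * H1) * 2 ^ M.j (t a) := by ring
      _ ≤ Q * 2 ^ M.j (t a) := by gcongr
      _ ≤ _ := h1

/-- the power: natural division against real division -/
theorem half_pow_div (m K : ℕ) (hK : 0 < K) {Y : ℝ} (hY : 2 * (K : ℝ) ≤ Y) :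
    ((1 : ℝ≥0∞) / 2) ^ (m / 2 / K) ≤ ENNReal.ofReal (2 * (2 : ℝ) ^ (-((m : ℝ) / Y))) := by
  have hK' : (0 : ℝ) < K := by exact_mod_cast hK
  have hY0 : 0 < Y := by linarith
  have e : ((1 : ℝ≥0∞) / 2) ^ (m / 2 / K) = ENNReal.ofReal ((2 : ℝ) ^ (-((m / 2 / K : ℕ) : ℝ))) := by
    rw [Real.rpow_neg (by norm_num), Real.rpow_natCast, ← inv_pow,
      ENNReal.ofReal_pow (by norm_num), ENNReal.ofReal_inv_of_pos (by norm_num)]
    simp
  rw [e]
  apply ENNReal.ofReal_le_ofReal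
  have h1 : (2 : ℝ) * (2 : ℝ) ^ (-((m : ℝ) / Y)) = (2 : ℝ) ^ (1 + -((m : ℝ) / Y)) := by
    rw [Real.rpow_add (by norm_num), Real.rpow_one]
  rw [h1]
  apply Real.rpow_le_rpow_of_exponent_le (by norm_num)
  have h2 : (m : ℝ) / (2 * K) < ((m / 2 / K : ℕ) : ℝ) + 1 := by
    rw [Nat.div_div_eq_div_mul, div_lt_iff₀ (by positivity)]
    have := Nat.lt_mul_div_succ m (b := 2 * K) (by positivity)
    have h3 : (m : ℝ) < (2 * K) * (((m / (2 * K) : ℕ) : ℝ) + 1) := by exact_mod_cast this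
    linarith
  have h3 : (m : ℝ) / Y ≤ (m : ℝ) / (2 * K) := by gcongr
  linarith

/-- the inequalities between the constants -/
theorem consts' {C1 C S T H0 H1 Q ε : ℝ} (hC1 : 1 ≤ C1) (hC : 10000 * (9 + 3 * C1) * (7 + 2 * C1) ≤ C)
    (hS : 1 ≤ S) (hT : 1 ≤ T) (hH0 : 1 < H0) (hH1 : 1 ≤ H1) (hSH : S ≤ H0)
    (hQ : C * (S * T) ^ 3 * H0 * H1 ≤ Q) (hε0 : 0 ≤ ε) (hε : C * (S * T) ^ 3 * H0 * H1 * ε ≤ 1) :
    16 * H0 ≤ Q ∧ 0 < Q ∧
    6 * H0 + (C1 * T + (C1 * T + S) * (1 / 4)) ≤ (7 + 2 * (C1 * T)) * H0 ∧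
    8 * (C1 * T + S) * H1 ≤ Q ∧ 256 * (5 + 3 * (7 + 2 * (C1 * T)) / 2) * H0 * H1 ≤ Q ∧
    ε ≤ 1 / 16 ∧ 2048 * H1 * ε ≤ 1 ∧
    2 * (96 * (7 + 2 * (C1 * T)) * T + 1) ≤ C * (S * T) ^ 3 ∧
    2 * (280 * (7 + 2 * (C1 * T)) * T * (2 * (3 + S + C1 * T + (C1 * T + S) / 4))) ≤
      C * (S * T) ^ 3 := by
  set X := S * T with hX
  have hX1 : 1 ≤ X := by nlinarith
  have hTX : T ≤ X := by nlinarith
  have hSX : S ≤ X := by nlinarith
  have hX3 : X ≤ X ^ 3 := le_self_pow₀ hX1 (by norm_num)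
  have hX31 : 1 ≤ X ^ 3 := one_le_pow₀ hX1
  have hX2 : X ^ 2 ≤ X ^ 3 := pow_le_pow_right₀ hX1 (by norm_num)
  have hC0 : 0 < C := by nlinarith
  have hCbig : 10000 * 12 * 9 ≤ C := by nlinarith
  have hHH : 1 ≤ H0 * H1 := by nlinarith
  have hH1H : H1 ≤ H0 * H1 := by nlinarith
  have hH0H : H0 ≤ H0 * H1 := by nlinarith
  have hCX : C ≤ C * X ^ 3 := le_mul_of_one_le_right hC0.le hX31
  have e1 : C * X ^ 3 * H0 * H1 = (C * X ^ 3) * (H0 * H1) := by ring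
  have hB : 7 + 2 * (C1 * T) ≤ (7 + 2 * C1) * X := by nlinarith
  have hC1T : C1 * T ≤ C1 * X := by gcongr
  refine ⟨?_, ?_, ?_, ?_, ?_, ?_, ?_, ?_, ?_⟩
  · calc 16 * H0 ≤ (C * X ^ 3) * (H0 * H1) := by
          have : 16 ≤ C * X ^ 3 := by linarith
          exact mul_le_mul this hH0H (by linarith) (by positivity)
      _ ≤ Q := by rw [← e1]; exact hQ
  · refine lt_of_lt_of_le ?_ hQ
    positivity
  · have h1 : C1 * T ≤ (C1 * T) * H0 := le_mul_of_one_le_right (by positivity) hH0.le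
    have h2 : (7 + 2 * (C1 * T)) * H0 = 7 * H0 + 2 * ((C1 * T) * H0) := by ring
    have h3 : 0 ≤ (C1 * T) * H0 := by positivity
    rw [h2]
    linarith
  · calc 8 * (C1 * T + S) * H1 ≤ (C * X ^ 3) * (H0 * H1) := by
          refine mul_le_mul ?_ hH1H (by linarith) (by positivity)
          calc 8 * (C1 * T + S) ≤ (8 * (C1 + 1)) * X ^ 3 := by nlinarith
            _ ≤ C * X ^ 3 := by
                gcongr
                nlinarith
      _ ≤ Q := by rw [← e1]; exact hQ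
  · calc 256 * (5 + 3 * (7 + 2 * (C1 * T)) / 2) * H0 * H1
        = (256 * (5 + 3 * (7 + 2 * (C1 * T)) / 2)) * (H0 * H1) := by ring
      _ ≤ (C * X ^ 3) * (H0 * H1) := by
          refine mul_le_mul_of_nonneg_right ?_ (by positivity)
          calc 256 * (5 + 3 * (7 + 2 * (C1 * T)) / 2) ≤ (256 * (16 + 3 * C1)) * X ^ 3 := by
                nlinarith
            _ ≤ C * X ^ 3 := by
                gcongr
                nlinarith
      _ ≤ Q := by rw [← e1]; exact hQ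
  · have : 16 * ε ≤ C * X ^ 3 * H0 * H1 * ε := by
      rw [e1]
      refine mul_le_mul_of_nonneg_right ?_ hε0
      have h1 : 16 ≤ C * X ^ 3 := by linarith
      nlinarith
    linarith
  · have : 2048 * H1 * ε ≤ C * X ^ 3 * H0 * H1 * ε := by
      rw [e1]
      refine mul_le_mul_of_nonneg_right ?_ hε0
      have h1 : 2048 ≤ C * X ^ 3 := by linarith
      exact mul_le_mul h1 hH1H (by linarith) (by positivity)
    linarith
  · calc 2 * (96 * (7 + 2 * (C1 * T)) * T + 1) ≤ 2 * (96 * ((7 + 2 * C1) * X) * X + X ^ 2) := by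
          have : 1 ≤ X ^ 2 := one_le_pow₀ hX1
          gcongr
      _ = (192 * (7 + 2 * C1) + 2) * X ^ 2 := by ring
      _ ≤ C * X ^ 3 := by
          refine mul_le_mul ?_ hX2 (by positivity) hC0.le
          nlinarith
  · have h3 : 2 * (3 + S + C1 * T + (C1 * T + S) / 4) ≤ (9 + 3 * C1) * X := by nlinarith
    calc 2 * (280 * (7 + 2 * (C1 * T)) * T * (2 * (3 + S + C1 * T + (C1 * T + S) / 4)))
        ≤ 2 * (280 * ((7 + 2 * C1) * X) * X * ((9 + 3 * C1) * X)) := by gcongr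
      _ = (560 * (9 + 3 * C1) * (7 + 2 * C1)) * X ^ 3 := by ring
      _ ≤ C * X ^ 3 := by
          gcongr
          refine le_trans ?_ hC
          gcongr
          norm_num

/-- what is needed from the candidates -/
def CandsP : Prop := ∃ C1 : ℝ, 1 ≤ C1 ∧
  ∀ (u : ℝ × ℝ → ℝ), Field u → ∀ (n ν : ℕ) (E0 : Set (ℝ × ℝ)), MeasurableSet E0 →
  (∃ ρ : ℝ, ∀ z ∈ E0, |z.1| ≤ ρ ∧ |z.2| ≤ ρ) →
  ∀ (S Q H0 θ : ℝ) (r : ℕ), 1 ≤ S → 16 * H0 ≤ Q → 1 < H0 → S ≤ H0 → 0 < θ → θ ≤ 1 → 3 ≤ r →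
  ∀ (ι : Type) [Fintype ι] (s : ι → ℝ) (E : ι → ℕ → Set (ℝ × ℝ)), SepTrees u S Q n s E →
    (∀ i j, E i j ⊆ Pd u E0 4 n ν j) →
  ∀ (G : ι → ℝ × ℝ → ℂ) (N0 : ℕ) (K : Fin N0 → Type) [∀ a, Fintype (K a)]
    (X : ∀ a, Bxs ι (K a)), Boxes s E S Q H0 θ r G N0 K X →
    ∃ (κ : Type) (_ : Fintype κ) (M : Tops κ), HasTile u E0 ν M ∧
      ENNReal.ofReal (∑ m, (1 / 2) ^ M.j m) ≤ ENNReal.ofReal (2 ^ (ν + 1)) * volume E0 ∧
      ∀ (a : Fin N0) (z : ℝ × ℝ), (∀ i ∈ act (X a) z, ∃ g : Finset κ,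
        (∀ t ∈ g, Cand.Rel u M (C1 * 2 ^ ν) (E i) (s i) (1 / 4) (6 * H0) z t) ∧
        H0 * (1 / 2) ^ (a : ℕ) ≤
          2 * (3 + S + C1 * 2 ^ ν + (C1 * 2 ^ ν + S) / 4) * (g.card : ℝ)) ∧
        ∀ i ∈ act (X a) z, ∀ i' ∈ act (X a) z, i ≠ i' →
          PP (E i) (E i') (s i) (s i') (1 / 4) (6 * H0) Q z

/-- **`[ARC]`** -/
theorem stArcs_of (hC : CandsP) : H646.Gain.StArcs := by
  obtain ⟨C1, hC1, hcands⟩ := hC
  refine ⟨10000 * (9 + 3 * C1) * (7 + 2 * C1), 3, by nlinarith, ?_⟩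
  set C := 10000 * (9 + 3 * C1) * (7 + 2 * C1) with hCdef
  intro u hu n ν E0 hE0 hE0b ε S Q H0 θ H1 r m hlip hS hH1 hQ hH0 hSH hθ0 hθ1 hr hε hm ι _ s E
    hE hEP G N0 K _ X hX a
  have hT : (1 : ℝ) ≤ 2 ^ ν := one_le_pow₀ (by norm_num)
  have hε0 : 0 ≤ ε := by
    have := hlip 0 0 1
    have h2 := abs_nonneg (u (0, 0) - u (0, 1))
    norm_num at this
    linarith
  obtain ⟨c1, c2, c3, c4, c5, c6, c7, c8, c9⟩ :=
    consts' hC1 (le_refl C) hS hT hH0 hH1 hSH hQ hε0 hε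
  have hC100 : 3 ≤ C := by rw [hCdef]; nlinarith
  have hr3 : 3 ≤ r := by
    have : (3 : ℝ) ≤ r := hC100.trans hr
    exact_mod_cast this
  obtain ⟨κ, _, M, hM, hsum, hgrp⟩ := hcands u hu n ν E0 hE0 hE0b S Q H0 θ r hS c1 hH0 hSH hθ0 hθ1
    hr3 ι s E hE hEP G N0 K X hX
  obtain ⟨Sy, hSy⟩ := exists_sys hu.meas hε0 c6 hlip hE0 M hM hH0.le
  set B : ℝ := 7 + 2 * (C1 * 2 ^ ν) with hB
  have hB2 : 2 ≤ B := by rw [hB]; nlinarith
  set ρ3 : ℝ := 2 * (3 + S + C1 * 2 ^ ν + (C1 * 2 ^ ν + S) / 4) with hρ3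
  have hρ30 : 0 < ρ3 := by positivity
  set x : ℝ := H0 * (1 / 2) ^ (a : ℕ) / ρ3 with hx
  have hx0 : 0 < x := by positivity
  set c : ℕ := ⌈x⌉₊ with hc
  set Kk : ℕ := ⌈96 * B * 2 ^ ν⌉₊ with hKk
  have hKk1 : 96 * B * 2 ^ ν ≤ Kk := Nat.le_ceil _
  have hKk2 : (Kk : ℝ) ≤ 96 * B * 2 ^ ν + 1 := (Nat.ceil_lt_add_one (by positivity)).le
  have hKk0 : 0 < Kk := by
    have : (0 : ℝ) < Kk := lt_of_lt_of_le (by positivity) hKk1
    exact_mod_cast this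
  have hη1 : 1 / (16 * H1) ≤ (1 : ℝ) / 4 := by
    rw [div_le_div_iff₀ (by positivity) (by norm_num)]; linarith
  refine ⟨BadB Sy B (1 / (16 * H1)) (2048 * H1) (m / 2) c, BadB_meas _ _ _ _ _ _, ?_, ?_⟩
  · have h1 := BadB_vol hSy hH0.le hsum hB2 (η := 1 / (16 * H1)) (lam := 2048 * H1)
      (by positivity) hη1 (by positivity) c7 hKk0 hKk1 (m / 2) c (Nat.le_ceil x)
    set D := volume (BadB Sy B (1 / (16 * H1)) (2048 * H1) (m / 2) c) with hD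
    have h2 : ENNReal.ofReal ((1 / 2) ^ (a : ℕ)) = ENNReal.ofReal (ρ3 / H0) * ENNReal.ofReal x := by
      rw [← ENNReal.ofReal_mul (by positivity)]
      congr 1
      rw [hx]; field_simp
    have h3 := half_pow_div m Kk hKk0 (Y := C * (S * 2 ^ ν) ^ 3) (by
      refine le_trans ?_ c8
      linarith)
    have h4 : ENNReal.ofReal x * D ≤ ENNReal.ofReal (280 * B * H0 * 2 ^ ν) *
        ENNReal.ofReal (2 * (2 : ℝ) ^ (-((m : ℝ) / (C * (S * 2 ^ ν) ^ 3)))) * volume E0 :=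
      h1.trans (by gcongr)
    calc ENNReal.ofReal ((1 / 2) ^ (a : ℕ)) * D
        = ENNReal.ofReal (ρ3 / H0) * (ENNReal.ofReal x * D) := by rw [h2, mul_assoc]
      _ ≤ ENNReal.ofReal (ρ3 / H0) * (ENNReal.ofReal (280 * B * H0 * 2 ^ ν) *
            ENNReal.ofReal (2 * (2 : ℝ) ^ (-((m : ℝ) / (C * (S * 2 ^ ν) ^ 3)))) *
              volume E0) := mul_le_mul' le_rfl h4
      _ = ENNReal.ofReal (2 * (280 * B * 2 ^ ν * ρ3) *
            (2 : ℝ) ^ (-((m : ℝ) / (C * (S * 2 ^ ν) ^ 3)))) * volume E0 := by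
          rw [← ENNReal.ofReal_mul (by positivity), ← mul_assoc,
            ← ENNReal.ofReal_mul (by positivity)]
          congr 2
          field_simp
      _ ≤ _ := by gcongr
  · intro z hz
    obtain ⟨hg, hPP⟩ := hgrp a z
    classical
    have hg' : ∀ i, ∃ g : Finset κ, i ∈ act (X a) z →
        (∀ t ∈ g, Cand.Rel u M (C1 * 2 ^ ν) (E i) (s i) (1 / 4) (6 * H0) z t) ∧
        H0 * (1 / 2) ^ (a : ℕ) ≤
          2 * (3 + S + C1 * 2 ^ ν + (C1 * 2 ^ ν + S) / 4) * (g.card : ℝ) := by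
      intro i
      by_cases hi : i ∈ act (X a) z
      · obtain ⟨g, h⟩ := hg i hi
        exact ⟨g, fun _ => h⟩
      · exact ⟨∅, fun h => absurd h hi⟩
    choose g hg using hg'
    have h := arcs_at' hSy (u := u) (E := E) (s := s) (A := S) (R := C1 * 2 ^ ν) (B := B) (Q := Q)
      (H1 := H1) (z := z) (by positivity) (by linarith) c2 hH1 hE.slope c3 c4 c5
      (m' := m / 2) (c := c) (act (X a) z) (fun i hi i' hi' hii => hPP i hi i' hi' hii) g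
      (fun i hi => (hg i hi).1) (fun i hi => ?_) hz
    · exact Arc_mono (Nat.mul_div_le m 2) h
    · refine Nat.ceil_le.2 ?_
      rw [hx, div_le_iff₀ hρ30]
      have h5 := (hg i hi).2
      rw [← hρ3] at h5
      linarith

end Vale.Agent.P112.H22.GArcs
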