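import Vale.Agent.P112.H22.GArcs
import Vale.Agent.P112.H597.Sparse3

/-!
# The literal `H646.Gain.StSq` from the candidates : `2 ^ (-a) ∫ N_a² ≤ R |E|`
-/

open MeasureTheory Set
open scoped ENNReal

noncomputable section

namespace Vale.Agent.P112.H22.GArcs

open Vale.Agent.P112.T Vale.Agent.P112.F30 Vale.Agent.P112.H22.Cand
open Vale.Agent.P112.H22.TopSys Vale.Agent.P112.H295 Vale.Agent.P112.H310
open Vale.Agent.P112.H597 Vale.Agent.P112.H22.ArcG Vale.Agent.P112.H646.Gain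
open Vale.Agent.P112.H8 (Bxs)

/-- the inequalities between the constants -/
theorem consts_sq {C1 C S T H0 Q ε : ℝ} (hC1 : 1 ≤ C1)
    (hC : 32 * (262272 * 8192) * (169 + 2 * C1) ^ 3 * (9 + 3 * C1) ≤ C)
    (hS : 1 ≤ S) (hT : 1 ≤ T) (hH0 : 1 < H0) (hSH : S ≤ H0)
    (hQ : C * (S * T) ^ 7 * H0 ≤ Q) (hε0 : 0 ≤ ε) (hε : C * (S * T) ^ 7 * H0 * ε ≤ 1) :
    16 * H0 ≤ Q ∧ 0 < Q ∧
    6 * H0 + (C1 * T + (C1 * T + S) * (1 / 4)) ≤ (7 + 2 * (C1 * T)) * H0 ∧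
    4 * (5 * H0) + 2 * (C1 * T + S) < Q ∧ ε ≤ 1 / 256 ∧ 3 ≤ C ∧
    262272 * 8192 * ((7 + 2 * (C1 * T)) + 2 + 32 * 5) ^ 3 * (4 * T ^ 2) *
      (4 * (2 * (3 + S + C1 * T + (C1 * T + S) / 4))) * (2 * T) ≤ C * (S * T) ^ 7 := by
  set X := S * T with hX
  have hX1 : 1 ≤ X := by nlinarith
  have hTX : T ≤ X := by nlinarith
  have hSX : S ≤ X := by nlinarith
  have hX31 : 1 ≤ X ^ 7 := one_le_pow₀ hX1
  have hX3 : X ≤ X ^ 7 := le_self_pow₀ hX1 (by norm_num)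
  have h9 : (12 : ℝ) ≤ 9 + 3 * C1 := by linarith
  have h171 : (1 : ℝ) ≤ (169 + 2 * C1) ^ 3 := one_le_pow₀ (by linarith)
  have h99 : (9 + 3 * C1) ≤ (169 + 2 * C1) ^ 3 * (9 + 3 * C1) :=
    le_mul_of_one_le_left (by linarith) h171
  have hCbig : 1000 * (9 + 3 * C1) ≤ C := by
    refine le_trans ?_ hC
    rw [mul_assoc]
    exact mul_le_mul (by norm_num) h99 (by linarith) (by norm_num)
  have hC0 : 0 < C := by linarith
  have hCX : C ≤ C * X ^ 7 := le_mul_of_one_le_right hC0.le hX31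
  have hC1T : C1 * T ≤ C1 * X := by gcongr
  refine ⟨?_, ?_, ?_, ?_, ?_, by linarith, ?_⟩
  · refine le_trans ?_ hQ
    gcongr
    linarith
  · exact lt_of_lt_of_le (by positivity) hQ
  · have h1 : C1 * T ≤ (C1 * T) * H0 := le_mul_of_one_le_right (by positivity) hH0.le
    have h2 : (7 + 2 * (C1 * T)) * H0 = 7 * H0 + 2 * ((C1 * T) * H0) := by ring
    have h3 : 0 ≤ (C1 * T) * H0 := by positivity
    rw [h2]
    linarith
  · refine lt_of_lt_of_le ?_ hQ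
    have h1 : 4 * (5 * H0) + 2 * (C1 * T + S) ≤ (22 + 2 * (C1 + 1)) * X * H0 := by
      have a1 : H0 ≤ X * H0 := le_mul_of_one_le_left (by linarith) hX1
      have a2 : C1 * T + S ≤ (C1 + 1) * X := by linarith
      have a3 : (C1 + 1) * X ≤ (C1 + 1) * X * H0 :=
        le_mul_of_one_le_right (by positivity) hH0.le
      nlinarith
    refine lt_of_le_of_lt h1 ?_
    have h2 : (22 + 2 * (C1 + 1)) * X < C * X ^ 7 := by
      calc (22 + 2 * (C1 + 1)) * X < C * X := by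
            gcongr
            linarith
        _ ≤ C * X ^ 7 := by gcongr
    gcongr
  · have : 256 * ε ≤ C * X ^ 7 * H0 * ε := by
      refine mul_le_mul_of_nonneg_right ?_ hε0
      have h1 : 256 ≤ C * X ^ 7 := by linarith
      nlinarith
    linarith
  · have h3 : 2 * (3 + S + C1 * T + (C1 * T + S) / 4) ≤ (9 + 3 * C1) * X := by nlinarith
    have h4 : (7 + 2 * (C1 * T)) + 2 + 32 * 5 ≤ (169 + 2 * C1) * X := by nlinarith
    calc 262272 * 8192 * ((7 + 2 * (C1 * T)) + 2 + 32 * 5) ^ 3 * (4 * T ^ 2) *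
          (4 * (2 * (3 + S + C1 * T + (C1 * T + S) / 4))) * (2 * T)
        ≤ 262272 * 8192 * ((169 + 2 * C1) * X) ^ 3 * (4 * X ^ 2) *
          (4 * ((9 + 3 * C1) * X)) * (2 * X) := by gcongr
      _ = (32 * (262272 * 8192) * (169 + 2 * C1) ^ 3 * (9 + 3 * C1)) * X ^ 7 := by ring
      _ ≤ C * X ^ 7 := by gcongr

/-- **`[SQ]`** -/
theorem stSq_of (hC : CandsP) : H646.Gain.StSq := by
  obtain ⟨C1, hC1, hcands⟩ := hC
  refine ⟨32 * (262272 * 8192) * (169 + 2 * C1) ^ 3 * (9 + 3 * C1), 7, ?_, ?_⟩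
  · have h171 : (1 : ℝ) ≤ (169 + 2 * C1) ^ 3 := one_le_pow₀ (by linarith)
    have h1 : (9 + 3 * C1) ≤ (169 + 2 * C1) ^ 3 * (9 + 3 * C1) :=
      le_mul_of_one_le_left (by linarith) h171
    rw [mul_assoc]
    nlinarith
  set C := 32 * (262272 * 8192) * (169 + 2 * C1) ^ 3 * (9 + 3 * C1) with hCdef
  intro u hu n ν E0 hE0 hE0b ε S Q H0 θ r hlip hS hQ hH0 hSH hθ0 hθ1 hr hε ι _ s E
    hE hEP G N0 K _ X hX a
  have hT : (1 : ℝ) ≤ 2 ^ ν := one_le_pow₀ (by norm_num)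
  have hε0 : 0 ≤ ε := by
    have := hlip 0 0 1
    have h2 := abs_nonneg (u (0, 0) - u (0, 1))
    norm_num at this
    linarith
  obtain ⟨c1, c2, c3, c4, c5, c6, c7⟩ :=
    consts_sq hC1 (le_refl C) hS hT hH0 hSH hQ hε0 hε
  have hr3 : 3 ≤ r := by
    have : (3 : ℝ) ≤ r := c6.trans hr
    exact_mod_cast this
  obtain ⟨κ, _, M, hM, hsum, hgrp⟩ := hcands u hu n ν E0 hE0 hE0b S Q H0 θ r hS c1 hH0 hSH hθ0 hθ1
    hr3 ι s E hE hEP G N0 K X hX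
  obtain ⟨Sy, hSy⟩ := exists_sys hu.meas hε0 (by linarith : ε ≤ 1 / 16) hlip hE0 M hM hH0.le
  set B : ℝ := 7 + 2 * (C1 * 2 ^ ν) with hB
  have hB2 : 2 ≤ B := by rw [hB]; nlinarith
  set ρ3 : ℝ := 2 * (3 + S + C1 * 2 ^ ν + (C1 * 2 ^ ν + S) / 4) with hρ3
  have hρ30 : 0 < ρ3 := by positivity
  set x : ℝ := H0 * (1 / 2) ^ (a : ℕ) / ρ3 with hx
  have hx0 : 0 < x := by positivity
  set c : ℕ := ⌈x⌉₊ with hc
  have hc0 : 1 ≤ c := Nat.ceil_pos.2 hx0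
  set q : ℕ := (c - 1) / 2 with hq
  have hq1 : 2 * q + 1 ≤ c := by omega
  have hq2 : x / 2 ≤ (q : ℝ) + 1 := by
    have h1 : c ≤ 2 * (q + 1) := by omega
    have h2 : (c : ℝ) ≤ 2 * ((q : ℝ) + 1) := by exact_mod_cast h1
    have h3 : x ≤ c := Nat.le_ceil x
    linarith
  obtain ⟨Φ, hΦm, hΦ0, hΦi, hΦI, hΦc⟩ := sparse3 Sy (by rw [hSy.ε_eq]; exact c5)
    (B := B) (by linarith) q
  -- the function dominates the number of the active tubes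
  have hdom : ∀ z, ((act (X a) z).card : ℝ) ≤ Φ z := by
    intro z
    obtain ⟨hg, hPP⟩ := hgrp a z
    have hg' : ∀ i : {i // i ∈ act (X a) z}, ∃ g : Finset κ,
        (∀ t ∈ g, Cand.Rel u M (C1 * 2 ^ ν) (E i) (s i) (1 / 4) (6 * H0) z t) ∧
        H0 * (1 / 2) ^ (a : ℕ) ≤ ρ3 * (g.card : ℝ) := fun i => hg i i.2
    choose g hg using hg'
    have hcard : ((act (X a) z).card : ℝ) = (Fintype.card {i // i ∈ act (X a) z} : ℝ) := by
      rw [Fintype.card_coe]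
    rw [hcard]
    refine hΦc z g (fun i => ?_) (fun i t ht => ?_) (fun i i' hii t ht t' ht' j hj => ?_)
    · refine hq1.trans (Nat.ceil_le.2 ?_)
      rw [hx, div_le_iff₀ hρ30]
      linarith [(hg i).2]
    · have hR := (hg i).1 t ht
      obtain ⟨x', hx1, hx2⟩ := rel_x (by norm_num) hR
      have h1 := rel_off (hE.slope i) hR
      refine ⟨mem_J3 (x := x') ?_ ?_, ?_⟩
      · rw [hSy.k_eq, hSy.m_eq]
        exact (q_eq_D _ _ _).1 hx1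
      · rw [abs_sub_comm]
        refine hx2.trans ?_
        rw [hSy.k_eq]
        have : (0 : ℝ) ≤ (2 : ℝ)⁻¹ ^ M.j t := by positivity
        linarith
      · rw [hSy.line_eq, hSy.w_eq]
        exact h1.trans c3
    · have hii' : (i : ι) ≠ i' := fun h => hii (Subtype.ext h)
      exact rel_sep Sy hSy.s_eq hSy.k_eq (by positivity) (by linarith)
        (by rw [hSy.A_eq, hSy.w_eq]; exact c4) (hE.slope i) (hE.slope i')
        (hPP i i.2 i' i'.2 hii') ((hg i).1 t ht) ((hg i').1 t' ht') j hj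
  have hsm0 : 0 ≤ ∑ m, (1 / 2 : ℝ) ^ M.j m := Finset.sum_nonneg fun _ _ => by positivity
  have hvR : ∑ t, volume.real (Sy.R t) = 2 * H0 * ∑ t, (1 / 2 : ℝ) ^ M.j t := by
    rw [Finset.mul_sum]
    refine Finset.sum_congr rfl fun t _ => ?_
    rw [Sy.vr_R, hSy.w_eq]
    unfold SysV.l
    rw [hSy.k_eq, show ((2 : ℝ)⁻¹) = 1 / 2 by norm_num]; ring
  have hI : ∫⁻ z, ((act (X a) z).card : ℝ≥0∞) ^ 2 ≤ ENNReal.ofReal (∫ z, Φ z ^ 2) := by
    rw [ofReal_integral_eq_lintegral_ofReal hΦi (Filter.Eventually.of_forall fun z => sq_nonneg _)]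
    refine lintegral_mono fun z => ?_
    rw [← ENNReal.ofReal_natCast, ← ENNReal.ofReal_pow (by positivity)]
    exact ENNReal.ofReal_le_ofReal (pow_le_pow_left₀ (by positivity) (hdom z) 2)
  have hmain : (1 / 2 : ℝ) ^ (a : ℕ) * ∫ z, Φ z ^ 2 ≤
      262272 * 8192 * (B + 2 + 32 * 5) ^ 3 * (4 * (2 ^ ν) ^ 2) * (4 * ρ3) *
        ∑ m, (1 / 2 : ℝ) ^ M.j m := by
    have h1 : (∑ i, volume.real (Sy.R i)) / (q + 1) ≤
        2 * H0 * (∑ t, (1 / 2 : ℝ) ^ M.j t) / (x / 2) := by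
      rw [hvR]
      gcongr
    have h2 : 2 * H0 * (∑ t, (1 / 2 : ℝ) ^ M.j t) / (x / 2) =
        (4 * ρ3) * (∑ t, (1 / 2 : ℝ) ^ M.j t) / (1 / 2 : ℝ) ^ (a : ℕ) := by
      rw [hx]
      field_simp
      ring
    have h3 : ∫ z, Φ z ^ 2 ≤ 262272 * 8192 * (B + 2 + 32 * 5) ^ 3 * (4 * (2 ^ ν) ^ 2) *
        ((4 * ρ3) * (∑ t, (1 / 2 : ℝ) ^ M.j t) / (1 / 2 : ℝ) ^ (a : ℕ)) := by
      refine hΦI.trans ?_
      rw [hSy.A_eq, hSy.δ_eq]
      have e : 262272 * 8192 * (B + 2 + 32 * 5) ^ 3 / ((1 / 2 : ℝ) ^ (ν + 1)) ^ 2 =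
          262272 * 8192 * (B + 2 + 32 * 5) ^ 3 * (4 * (2 ^ ν) ^ 2) := by
        rw [one_div, inv_pow, pow_succ]
        field_simp
        ring
      rw [e, ← h2]
      gcongr
    calc (1 / 2 : ℝ) ^ (a : ℕ) * ∫ z, Φ z ^ 2 ≤ (1 / 2 : ℝ) ^ (a : ℕ) *
          (262272 * 8192 * (B + 2 + 32 * 5) ^ 3 * (4 * (2 ^ ν) ^ 2) *
          ((4 * ρ3) * (∑ t, (1 / 2 : ℝ) ^ M.j t) / (1 / 2 : ℝ) ^ (a : ℕ))) := by gcongr
      _ = _ := by
          have : ((1 : ℝ) / 2) ^ (a : ℕ) ≠ 0 := by positivity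
          field_simp
  calc ENNReal.ofReal ((1 / 2) ^ (a : ℕ)) * ∫⁻ z, ((act (X a) z).card : ℝ≥0∞) ^ 2
      ≤ ENNReal.ofReal ((1 / 2) ^ (a : ℕ)) * ENNReal.ofReal (∫ z, Φ z ^ 2) := by gcongr
    _ = ENNReal.ofReal ((1 / 2) ^ (a : ℕ) * ∫ z, Φ z ^ 2) := by
        rw [ENNReal.ofReal_mul (by positivity)]
    _ ≤ ENNReal.ofReal (262272 * 8192 * (B + 2 + 32 * 5) ^ 3 * (4 * (2 ^ ν) ^ 2) * (4 * ρ3) *
          ∑ m, (1 / 2 : ℝ) ^ M.j m) := ENNReal.ofReal_le_ofReal hmain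
    _ = ENNReal.ofReal (262272 * 8192 * (B + 2 + 32 * 5) ^ 3 * (4 * (2 ^ ν) ^ 2) * (4 * ρ3)) *
          ENNReal.ofReal (∑ m, (1 / 2 : ℝ) ^ M.j m) := by
        rw [← ENNReal.ofReal_mul (by positivity)]
    _ ≤ ENNReal.ofReal (262272 * 8192 * (B + 2 + 32 * 5) ^ 3 * (4 * (2 ^ ν) ^ 2) * (4 * ρ3)) *
          (ENNReal.ofReal (2 ^ (ν + 1)) * volume E0) := by gcongr
    _ = ENNReal.ofReal (262272 * 8192 * (B + 2 + 32 * 5) ^ 3 * (4 * (2 ^ ν) ^ 2) * (4 * ρ3) *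
          (2 * 2 ^ ν)) * volume E0 := by
        rw [← mul_assoc, ← ENNReal.ofReal_mul (by positivity)]
        congr 2
        rw [pow_succ]; ring
    _ ≤ _ := by gcongr

end Vale.Agent.P112.H22.GArcs
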