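import Vale.Agent.P112.F30.Defs
import Vale.Agent.P112.H295.Sparse

/-!
# The dense tops of `StFD2` as a system of dense tubes of height `w`

Input: a finite list of tops `M` (F30), every top contains a thin dense tile `Et u E d`
(this is the output of `StFD2` with `H = 1`). Output: the `SysV` (H295) with the same cells, slopes
and lines, half height `w ≥ 1`, density `2 ^ (-(ν + 1))`.
-/

open MeasureTheory Set
open scoped ENNReal

noncomputable section

namespace Vale.Agent.P112.H22.TopSys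

open Vale.Agent.P112.T Vale.Agent.P112.F30 Vale.Agent.P112.H310 Vale.Agent.P112.H295

/-- the hypothesis: every top contains a thin dense tile -/
def HasTile (u : ℝ × ℝ → ℝ) (E : Set (ℝ × ℝ)) (ν : ℕ) {κ : Type} (M : Tops κ) : Prop :=
  ∀ m, ∃ d : ℕ × ℤ × ℤ × ℤ, d.1 = M.j m ∧ Et u E d ⊆ M.V u 1 m ∧
    ENNReal.ofReal ((1 / 2) ^ (ν + 1) * (1 / 2) ^ M.j m) ≤ volume (Et u E d)

/-- the dense set of the top `m`, vertically saturated -/
def Vs (u : ℝ × ℝ → ℝ) {κ : Type} (M : Tops κ) (w : ℝ) (m : κ) : Set (ℝ × ℝ) :=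
  {z | z ∈ Reg (D (M.j m) (q 0 (M.j m) (M.x m))) (fun x => (M.y m - M.s m * M.x m) + M.s m * x) w ∧
    |u z - M.s m| ≤ 5 * w / (2 : ℝ)⁻¹ ^ M.j m}

theorem Vs_meas {u : ℝ × ℝ → ℝ} (hu : Measurable u) {κ : Type} (M : Tops κ) (w : ℝ) (m : κ) :
    MeasurableSet (Vs u M w m) := by
  have h1 : MeasurableSet (Reg (D (M.j m) (q 0 (M.j m) (M.x m)))
      (fun x => (M.y m - M.s m * M.x m) + M.s m * x) w) :=
    measurableSet_Reg (measurableSet_D _ _) (by fun_prop) _
  have h2 : MeasurableSet {z : ℝ × ℝ | |u z - M.s m| ≤ 5 * w / (2 : ℝ)⁻¹ ^ M.j m} :=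
    measurableSet_le ((hu.sub measurable_const).abs) measurable_const
  exact h1.inter h2

theorem q_eq_D (i : ℕ) (x : ℝ) (k : ℤ) : q 0 i x = k ↔ x ∈ D i k := by
  rw [mem_D]; unfold q
  rw [sub_zero, mul_comm]

theorem line_eq {κ : Type} (M : Tops κ) (m : κ) (x : ℝ) :
    M.line m x = (M.y m - M.s m * M.x m) + M.s m * x := by
  unfold Tops.line; ring

/-- the volume of the saturated set -/
theorem Vs_vol {u : ℝ × ℝ → ℝ} (hu : Measurable u) {ε : ℝ} (hε1 : ε ≤ 1)
    (hLip : ∀ x y y', |u (x, y) - u (x, y')| ≤ ε * |y - y'|) {E : Set (ℝ × ℝ)}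
    (hE : MeasurableSet E) {ν : ℕ} {κ : Type} {M : Tops κ} (hM : HasTile u E ν M) {w : ℝ}
    (hw : 1 ≤ w) (m : κ) :
    (1 / 2 : ℝ) ^ (ν + 1) * volume.real (Reg (D (M.j m) (q 0 (M.j m) (M.x m)))
      (fun x => (M.y m - M.s m * M.x m) + M.s m * x) w) ≤ volume.real (Vs u M w m) := by
  obtain ⟨d, hd1, hd2, hd3⟩ := hM m
  have hV := Vs_meas hu M w m
  have hEt : MeasurableSet (Et u E d) := by
    unfold Et
    have h1 : MeasurableSet {z : ℝ × ℝ | q 0 d.1 z.1 = d.2.1} := by
      have : Measurable fun z : ℝ × ℝ => q 0 d.1 z.1 := by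
        unfold q; fun_prop
      exact this (measurableSet_singleton _)
    have h2 : MeasurableSet {z : ℝ × ℝ | ⌊u z / 2 ^ d.1⌋ = d.2.2.1} := by
      have : Measurable fun z : ℝ × ℝ => ⌊u z / 2 ^ d.1⌋ := (hu.div_const _).floor
      exact this (measurableSet_singleton _)
    have h3 : MeasurableSet {z : ℝ × ℝ | ⌊z.2 - d.2.2.1 * 2 ^ d.1 * z.1⌋ = d.2.2.2} := by
      have : Measurable fun z : ℝ × ℝ => ⌊z.2 - (d.2.2.1 : ℝ) * 2 ^ d.1 * z.1⌋ := by fun_prop
      exact this (measurableSet_singleton _)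
    exact hE.inter (h1.inter (h2.inter h3))
  have hR0 : volume (Reg (D (M.j m) (q 0 (M.j m) (M.x m)))
      (fun x => (M.y m - M.s m * M.x m) + M.s m * x) w) =
      ENNReal.ofReal ((2 : ℝ)⁻¹ ^ M.j m) * ENNReal.ofReal (2 * w) := by
    rw [volume_Reg (measurableSet_D _ _) (by fun_prop), volume_D]
  have hfin : volume (Vs u M w m) ≠ ⊤ := by
    refine ne_top_of_le_ne_top ?_ (measure_mono (show Vs u M w m ⊆ _ from fun z hz => hz.1))
    rw [hR0]; exact ENNReal.mul_ne_top ENNReal.ofReal_ne_top ENNReal.ofReal_ne_top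
  -- sections
  have key : ENNReal.ofReal (2 * w) * volume (Et u E d) ≤ volume (Vs u M w m) := by
    rw [Measure.volume_eq_prod, Measure.prod_apply hEt, Measure.prod_apply hV,
      ← lintegral_const_mul _ (measurable_measure_prodMk_left hEt)]
    refine lintegral_mono fun x => ?_
    by_cases hx : (Prod.mk x ⁻¹' Et u E d) = ∅
    · simp only [hx, measure_empty, mul_zero]; exact zero_le
    · obtain ⟨y0, hy0⟩ := Set.nonempty_iff_ne_empty.2 hx
      have h1 : volume (Prod.mk x ⁻¹' Et u E d) ≤ 1 := by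
        have hsub : (Prod.mk x ⁻¹' Et u E d) ⊆
            Ico (d.2.2.2 + d.2.2.1 * 2 ^ d.1 * x) (d.2.2.2 + d.2.2.1 * 2 ^ d.1 * x + 1) := by
          intro y hy
          have h := hy.2.2.2
          rw [Int.floor_eq_iff] at h
          constructor
          · have := h.1; simp only at this; linarith
          · have := h.2; simp only at this; linarith
        refine (measure_mono hsub).trans (le_of_eq ?_)
        rw [Real.volume_Ico]
        simp
      have h2 : ENNReal.ofReal (2 * w) ≤ volume (Prod.mk x ⁻¹' Vs u M w m) := by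
        have hz0 := hd2 hy0
        obtain ⟨hq, hl, hs⟩ := hz0
        simp only at hq hl hs
        have hsub : Icc (M.line m x - w) (M.line m x + w) ⊆ Prod.mk x ⁻¹' Vs u M w m := by
          intro y hy
          have hyw : |y - M.line m x| ≤ w := by
            rw [abs_le]; constructor <;> linarith [hy.1, hy.2]
          refine ⟨⟨(q_eq_D _ _ _).1 hq, ?_⟩, ?_⟩
          · simp only
            rw [← line_eq]; exact hyw
          · have h3 := hLip x y y0
            have h4 : |y - y0| ≤ w + 1 := by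
              calc |y - y0| = |(y - M.line m x) - (y0 - M.line m x)| := by ring_nf
                _ ≤ |y - M.line m x| + |y0 - M.line m x| := abs_sub _ _
                _ ≤ w + 1 := add_le_add hyw hl
            have h5 : |u (x, y) - M.s m| ≤ |u (x, y) - u (x, y0)| + |u (x, y0) - M.s m| :=
              abs_sub_le _ _ _
            have h6 : ε * |y - y0| ≤ 1 * (w + 1) := by
              apply mul_le_mul hε1 h4 (abs_nonneg _) zero_le_one
            have h7 : (1 : ℝ) ≤ 2 ^ M.j m := one_le_pow₀ (by norm_num)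
            have h8 : 5 * w / (2 : ℝ)⁻¹ ^ M.j m = 5 * w * 2 ^ M.j m := by
              rw [inv_pow, div_inv_eq_mul]
            rw [h8]
            nlinarith
        refine le_trans ?_ (measure_mono hsub)
        rw [Real.volume_Icc]
        apply ENNReal.ofReal_le_ofReal; linarith
      calc ENNReal.ofReal (2 * w) * volume (Prod.mk x ⁻¹' Et u E d)
          ≤ ENNReal.ofReal (2 * w) * 1 := by gcongr
        _ ≤ _ := by rw [mul_one]; exact h2
  have hreal : volume.real (Reg (D (M.j m) (q 0 (M.j m) (M.x m)))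
      (fun x => (M.y m - M.s m * M.x m) + M.s m * x) w) = (2 : ℝ)⁻¹ ^ M.j m * (2 * w) := by
    rw [measureReal_def, hR0, ← ENNReal.ofReal_mul (by positivity), ENNReal.toReal_ofReal]
    positivity
  rw [hreal]
  have h3 : ENNReal.ofReal (2 * w * ((1 / 2) ^ (ν + 1) * (1 / 2) ^ M.j m)) ≤
      volume (Vs u M w m) := by
    rw [ENNReal.ofReal_mul (by positivity)]
    exact (mul_le_mul_right hd3 _).trans key
  have h4 := ENNReal.toReal_mono hfin h3
  rw [ENNReal.toReal_ofReal (by positivity)] at h4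
  rw [measureReal_def]
  refine le_trans (le_of_eq ?_) h4
  simp only [one_div]
  ring

/-- the system of dense tubes -/
def topSys (u : ℝ × ℝ → ℝ) (hu : Measurable u) {ε : ℝ} (hε0 : 0 ≤ ε) (hε1 : ε ≤ 1 / 16)
    (hLip : ∀ x y y', |u (x, y) - u (x, y')| ≤ ε * |y - y'|) {E : Set (ℝ × ℝ)}
    (hE : MeasurableSet E) {ν : ℕ} {κ : Type} (M : Tops κ) (hM : HasTile u E ν M) {w : ℝ}
    (hw : 1 ≤ w) : SysV κ where
  w := w
  A := 5
  δ := (1 / 2) ^ (ν + 1)
  ε := ε
  u := fun x y => u (x, y)
  k := M.j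
  m := fun m => q 0 (M.j m) (M.x m)
  s := M.s
  b := fun m => M.y m - M.s m * M.x m
  V := Vs u M w
  w_pos := by linarith
  one_le_A := by norm_num
  δ_pos := by positivity
  ε_nonneg := hε0
  ε_le := hε1
  u_meas := hu
  u_lip := hLip
  V_meas := fun m => Vs_meas hu M w m
  V_sub := fun m z hz => hz.1
  V_slope := fun m z hz => hz.2
  V_dens := fun m => Vs_vol hu (by linarith) hLip hE hM hw m

end Vale.Agent.P112.H22.TopSys
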