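import Vale.Agent.P112.H646.Defs

/-!
# P112, chapter (G): use of the gauge and summation over the bands, block (u3) of `[H-USE]`

* `sq_gg_le`, `ofReal_sq_gg_le` : `gg β P c ^ 2 ≤ #{c ≠ 0} ^ (2 β - 1) * ∑ ‖c i‖ ^ 2`;
* `norm_G_sq_le` : `|G|² ≤ φ ^ (1/2) * (gg²) ^ (1/2)`;
* `use` : the bound of the heart for every band gives the bound of the sum over the bands;
* `use_bdd`, `use_Lp` : the two closing forms.
-/

open MeasureTheory
open scoped ENNReal

noncomputable section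

namespace Vale.Agent.P112.H22.Use

open Vale.Agent.P112.H646

/-! ## 1. the gauge -/

theorem sq_gg_le {ι : Type} {β : ℝ} (h1 : 1 / 2 ≤ β) (P : Finset ι) (c : ι → ℂ) [DecidablePred fun i => c i ≠ 0] :
    gg β P c ^ 2 ≤ ((P.filter fun i => c i ≠ 0).card : ℝ) ^ (2 * β - 1) *
      ∑ i ∈ P, ‖c i‖ ^ 2 := by
  have hβ : 0 < β := by linarith
  have hsub : ∑ i ∈ P, ‖c i‖ ^ (1 / β) = ∑ i ∈ P.filter (fun i => c i ≠ 0), ‖c i‖ ^ (1 / β) := by
    rw [Finset.sum_filter]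
    refine Finset.sum_congr rfl fun i _ => ?_
    by_cases h : c i = 0
    · simp [h, hβ.ne']
    · simp [h]
  have hsub2 : ∑ i ∈ P, ‖c i‖ ^ 2 = ∑ i ∈ P.filter (fun i => c i ≠ 0), ‖c i‖ ^ 2 := by
    rw [Finset.sum_filter]
    refine Finset.sum_congr rfl fun i _ => ?_
    by_cases h : c i = 0
    · simp [h]
    · simp [h]
  have key := Real.rpow_sum_le_const_mul_sum_rpow_of_nonneg (P.filter (fun i => c i ≠ 0))
    (f := fun i => ‖c i‖ ^ (1 / β)) (p := 2 * β) (by linarith)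
    (fun i _ => Real.rpow_nonneg (norm_nonneg _) _)
  have h2 : ∀ i, (‖c i‖ ^ (1 / β)) ^ (2 * β) = ‖c i‖ ^ 2 := by
    intro i
    rw [← Real.rpow_mul (norm_nonneg _)]
    have : 1 / β * (2 * β) = 2 := by field_simp
    rw [this]
    exact_mod_cast Real.rpow_natCast ‖c i‖ 2
  simp only [h2] at key
  unfold gg
  rw [hsub, hsub2]
  have hnn : 0 ≤ ∑ i ∈ P.filter (fun i => c i ≠ 0), ‖c i‖ ^ (1 / β) :=
    Finset.sum_nonneg fun i _ => Real.rpow_nonneg (norm_nonneg _) _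
  have h3 : ((∑ i ∈ P.filter (fun i => c i ≠ 0), ‖c i‖ ^ (1 / β)) ^ β) ^ 2 =
      (∑ i ∈ P.filter (fun i => c i ≠ 0), ‖c i‖ ^ (1 / β)) ^ (2 * β) := by
    rw [← Real.rpow_natCast, ← Real.rpow_mul hnn]
    congr 1
    push_cast
    ring
  rw [h3]
  exact key

/-- the `ENNReal` form -/
theorem ofReal_sq_gg_le {ι : Type} {β : ℝ} (h1 : 1 / 2 ≤ β) (P : Finset ι) (c : ι → ℂ)
    [DecidablePred fun i => c i ≠ 0] {N : ℝ≥0∞} (hN : ((P.filter fun i => c i ≠ 0).card : ℝ≥0∞) ≤ N) :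
    ENNReal.ofReal (gg β P c ^ 2) ≤ N ^ (2 * β - 1) *
      ∑ i ∈ P, ENNReal.ofReal (‖c i‖ ^ 2) := by
  refine (ENNReal.ofReal_le_ofReal (sq_gg_le h1 P c)).trans ?_
  rw [ENNReal.ofReal_mul (Real.rpow_nonneg (Nat.cast_nonneg _) _),
    ENNReal.ofReal_sum_of_nonneg fun i _ => by positivity]
  gcongr
  rw [← ENNReal.ofReal_rpow_of_nonneg (Nat.cast_nonneg _) (by linarith), ENNReal.ofReal_natCast]
  exact ENNReal.rpow_le_rpow hN (by linarith)

variable {ι κ : Type} [Fintype ι] [Fintype κ]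

/-- `|G_P|² ≤ φ_P ^ (1/2) * (M_P²) ^ (1/2)` -/
theorem norm_G_sq_le (Z : Sys ι κ) {β : ℝ} (hβ : 0 < β) (P : Finset ι) (z : ℝ × ℝ) :
    ENNReal.ofReal (‖Z.G P z‖ ^ 2) ≤ Z.phi β P z ^ (1 / 2 : ℝ) *
      ENNReal.ofReal (gg β P (fun i => Z.a i z) ^ 2) ^ (1 / 2 : ℝ) := by
  by_cases h0 : gg β P (fun i => Z.a i z) = 0
  · -- all the amplitudes vanish
    have hsum : ∑ i ∈ P, ‖Z.a i z‖ ^ (1 / β) = 0 := by
      unfold gg at h0
      have hnn : 0 ≤ ∑ i ∈ P, ‖Z.a i z‖ ^ (1 / β) :=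
        Finset.sum_nonneg fun i _ => Real.rpow_nonneg (norm_nonneg _) _
      exact (Real.rpow_eq_zero hnn hβ.ne').1 h0
    have hz : ∀ i ∈ P, Z.a i z = 0 := by
      intro i hi
      have := (Finset.sum_eq_zero_iff_of_nonneg
        (fun i _ => Real.rpow_nonneg (norm_nonneg _) _)).1 hsum i hi
      have h2 := (Real.rpow_eq_zero (norm_nonneg (Z.a i z)) (by positivity)).1 this
      exact norm_eq_zero.1 h2
    have hG : Z.G P z = 0 := by
      unfold Sys.G ff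
      refine Finset.sum_eq_zero fun i hi => ?_
      simp only [hz i hi, zero_mul]
    simp [hG]
  · unfold Sys.phi
    have hg : 0 < gg β P (fun i => Z.a i z) ^ 2 := by positivity
    rw [← ENNReal.mul_rpow_of_nonneg _ _ (by norm_num), ← ENNReal.ofReal_mul (by positivity),
      div_mul_cancel₀ _ hg.ne', ENNReal.ofReal_rpow_of_nonneg (by positivity) (by norm_num)]
    apply ENNReal.ofReal_le_ofReal
    have : (‖Z.G P z‖ ^ 4) ^ (1 / 2 : ℝ) = ‖Z.G P z‖ ^ 2 := by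
      rw [show ‖Z.G P z‖ ^ 4 = (‖Z.G P z‖ ^ 2) ^ 2 by ring, ← Real.sqrt_eq_rpow,
        Real.sqrt_sq (by positivity)]
    rw [this]

/-! ## 2. measurability -/

theorem measurableSet_bx (Z : Sys ι κ) (θ : ℝ) (b : κ) : MeasurableSet (Z.bx θ b) := by
  unfold Sys.bx
  have m1 : Measurable fun z : ℝ × ℝ => z.1 := measurable_fst
  have m2 : Measurable fun z : ℝ × ℝ => z.2 - Z.s (Z.tb b) * z.1 :=
    measurable_snd.sub (measurable_fst.const_mul _)
  exact (measurableSet_le measurable_const m1).inter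
    ((measurableSet_lt m1 measurable_const).inter
      ((measurableSet_le measurable_const m2).inter (measurableSet_lt m2 measurable_const)))

theorem measurable_a (Z : Sys ι κ) (i : ι) : Measurable (Z.a i) := by
  classical
  unfold Sys.a
  refine Finset.measurable_sum _ fun b _ => ?_
  by_cases h : Z.tb b = i
  · have : (fun z : ℝ × ℝ => if Z.tb b = i ∧ z ∈ Z.bx 0 b then Z.val b else 0) =
        fun z => if z ∈ Z.bx 0 b then Z.val b else 0 := by
      funext z; simp [h]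
    rw [this]
    exact Measurable.ite (measurableSet_bx Z 0 b) measurable_const measurable_const
  · have : (fun z : ℝ × ℝ => if Z.tb b = i ∧ z ∈ Z.bx 0 b then Z.val b else 0) =
        fun z => 0 := by
      funext z; simp [h]
    rw [this]
    exact measurable_const

theorem measurable_G (Z : Sys ι κ) (P : Finset ι) : Measurable (Z.G P) := by
  unfold Sys.G ff
  refine Finset.measurable_sum _ fun i _ => (measurable_a Z i).mul ?_
  fun_prop

theorem measurable_gg (Z : Sys ι κ) (β : ℝ) (P : Finset ι) :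
    Measurable fun z => gg β P (fun i => Z.a i z) := by
  unfold gg
  refine Measurable.pow_const (Finset.measurable_sum _ fun i _ => ?_) _
  exact ((measurable_a Z i).norm).pow_const _

theorem measurable_phi (Z : Sys ι κ) (β : ℝ) (P : Finset ι) : Measurable (Z.phi β P) := by
  unfold Sys.phi
  refine ENNReal.measurable_ofReal.comp ?_
  exact ((measurable_G Z P).norm.pow_const 4).div ((measurable_gg Z β P).pow_const 2)

theorem measurable_sq (Z : Sys ι κ) (P : Finset ι) : Measurable (Z.sq P) := by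
  unfold Sys.sq
  refine Finset.measurable_sum _ fun i _ => ENNReal.measurable_ofReal.comp ?_
  exact (measurable_a Z i).norm.pow_const 2

/-! ## 3. Cauchy–Schwarz -/

/-- Cauchy–Schwarz for series in `ENNReal`. -/
theorem tsum_CS {B : Type} (f g : B → ℝ≥0∞) :
    ∑' b, f b ^ (1 / 2 : ℝ) * g b ^ (1 / 2 : ℝ) ≤ (∑' b, f b) ^ (1 / 2 : ℝ) * (∑' b, g b) ^ (1 / 2 : ℝ) := by
  let _ : MeasurableSpace B := ⊤
  have hc : Real.HolderConjugate 2 2 := Real.HolderConjugate.two_two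
  have := ENNReal.lintegral_mul_le_Lp_mul_Lq (Measure.count : Measure B) hc
    (f := fun b => f b ^ (1 / 2 : ℝ)) (g := fun b => g b ^ (1 / 2 : ℝ))
    (measurable_from_top).aemeasurable (measurable_from_top).aemeasurable
  simp only [lintegral_count, Pi.mul_apply] at this
  refine this.trans (le_of_eq ?_)
  congr 2
  · refine tsum_congr fun b => ?_
    rw [← ENNReal.rpow_mul]; norm_num
  · refine tsum_congr fun b => ?_
    rw [← ENNReal.rpow_mul]; norm_num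

/-- Cauchy–Schwarz for integrals in `ENNReal`. -/
theorem lint_CS {α : Type*} [MeasurableSpace α] (μ : Measure α) {f g : α → ℝ≥0∞}
    (hf : AEMeasurable f μ) (hg : AEMeasurable g μ) :
    ∫⁻ z, f z ^ (1 / 2 : ℝ) * g z ^ (1 / 2 : ℝ) ∂μ ≤
      (∫⁻ z, f z ∂μ) ^ (1 / 2 : ℝ) * (∫⁻ z, g z ∂μ) ^ (1 / 2 : ℝ) := by
  have hc : Real.HolderConjugate 2 2 := Real.HolderConjugate.two_two
  have := ENNReal.lintegral_mul_le_Lp_mul_Lq μ hc
    (f := fun b => f b ^ (1 / 2 : ℝ)) (g := fun b => g b ^ (1 / 2 : ℝ))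
    (hf.pow_const _) (hg.pow_const _)
  simp only [Pi.mul_apply] at this
  refine this.trans (le_of_eq ?_)
  congr 2
  · refine lintegral_congr fun b => ?_
    rw [← ENNReal.rpow_mul]; norm_num
  · refine lintegral_congr fun b => ?_
    rw [← ENNReal.rpow_mul]; norm_num

/-! ## 4. the sum over the bands -/

variable {B : Type} [Countable B] {kap : B → Type} [∀ b, Fintype (kap b)]

open Classical in
/-- **(u3)** : the bound of the heart in every band gives the bound of the sum over the bands. -/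
theorem use (Z : ∀ b, Sys ι (kap b)) {β : ℝ} (h1 : 1 / 2 ≤ β) {F : Set (ℝ × ℝ)}
    {C : ℝ≥0∞} {N : ℝ × ℝ → ℝ≥0∞}
    (hF : MeasurableSet F)
    (hheart : ∀ b, ∫⁻ z in F, (Z b).phi β Finset.univ z ≤ C * ∫⁻ z, (Z b).sq Finset.univ z)
    (hN : ∀ z ∈ F, ∀ b, ((Finset.univ.filter fun i => (Z b).a i z ≠ 0).card : ℝ≥0∞) ≤ N z) :
    ∫⁻ z in F, ∑' b, ENNReal.ofReal (‖(Z b).G Finset.univ z‖ ^ 2) ≤
      (C * ∫⁻ z, ∑' b, (Z b).sq Finset.univ z) ^ (1 / 2 : ℝ) *
        (∫⁻ z in F, (N z) ^ (2 * β - 1) * ∑' b, (Z b).sq Finset.univ z) ^ (1 / 2 : ℝ) := by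
  have hβ : 0 < β := by linarith
  set g : B → ℝ × ℝ → ℝ≥0∞ := fun b z =>
    ENNReal.ofReal (gg β Finset.univ (fun i => (Z b).a i z) ^ 2) with hg
  have mg : ∀ b, Measurable (g b) := fun b =>
    ENNReal.measurable_ofReal.comp ((measurable_gg (Z b) β Finset.univ).pow_const 2)
  have mphi : ∀ b, Measurable ((Z b).phi β Finset.univ) := fun b => measurable_phi (Z b) β _
  calc ∫⁻ z in F, ∑' b, ENNReal.ofReal (‖(Z b).G Finset.univ z‖ ^ 2)
      ≤ ∫⁻ z in F, ∑' b, (Z b).phi β Finset.univ z ^ (1 / 2 : ℝ) * g b z ^ (1 / 2 : ℝ) :=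
        lintegral_mono fun z => ENNReal.tsum_le_tsum fun b => norm_G_sq_le (Z b) hβ _ z
    _ ≤ ∫⁻ z in F, (∑' b, (Z b).phi β Finset.univ z) ^ (1 / 2 : ℝ) *
          (∑' b, g b z) ^ (1 / 2 : ℝ) :=
        lintegral_mono fun z => tsum_CS _ _
    _ ≤ (∫⁻ z in F, ∑' b, (Z b).phi β Finset.univ z) ^ (1 / 2 : ℝ) *
          (∫⁻ z in F, ∑' b, g b z) ^ (1 / 2 : ℝ) :=
        lint_CS _ (Measurable.tsum mphi).aemeasurable
          (Measurable.tsum mg).aemeasurable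
    _ ≤ (C * ∫⁻ z, ∑' b, (Z b).sq Finset.univ z) ^ (1 / 2 : ℝ) *
        (∫⁻ z in F, (N z) ^ (2 * β - 1) * ∑' b, (Z b).sq Finset.univ z) ^ (1 / 2 : ℝ) := by
        gcongr ?_ ^ (1 / 2 : ℝ) * ?_ ^ (1 / 2 : ℝ)
        · rw [lintegral_tsum fun b => (mphi b).aemeasurable,
            lintegral_tsum fun b => (measurable_sq (Z b) _).aemeasurable,
            ← ENNReal.tsum_mul_left]
          exact ENNReal.tsum_le_tsum hheart
        · refine setLIntegral_mono_ae' hF (Filter.Eventually.of_forall fun z hz => ?_)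
          rw [← ENNReal.tsum_mul_left]
          exact ENNReal.tsum_le_tsum fun b => ofReal_sq_gg_le h1 _ _ (hN z hz b)

/-- the energy of tube `i`: the sum over the bands of the squared amplitudes -/
def Den (Z : ∀ b, Sys ι (kap b)) (i : ι) (z : ℝ × ℝ) : ℝ≥0∞ :=
  ∑' b, ENNReal.ofReal (‖(Z b).a i z‖ ^ 2)

theorem measurable_Den (Z : ∀ b, Sys ι (kap b)) (i : ι) : Measurable (Den Z i) :=
  Measurable.tsum fun b => ENNReal.measurable_ofReal.comp ((measurable_a (Z b) i).norm.pow_const 2)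

omit [Countable B] in
theorem tsum_sq (Z : ∀ b, Sys ι (kap b)) (z : ℝ × ℝ) :
    ∑' b, (Z b).sq Finset.univ z = ∑ i, Den Z i z := by
  unfold Sys.sq Den
  exact Summable.tsum_finsetSum fun i _ => ENNReal.summable

omit [Countable B] in
open Classical in
/-- the number of tubes with positive energy, as a bound for the number of active amplitudes -/
theorem card_le_of_support (Z : ∀ b, Sys ι (kap b)) {R : ι → Set (ℝ × ℝ)} {z : ℝ × ℝ}
    (hR : ∀ i, z ∉ R i → Den Z i z = 0) (b : B) :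
    ((Finset.univ.filter fun i => (Z b).a i z ≠ 0).card : ℝ≥0∞) ≤
      ((Finset.univ.filter fun i => z ∈ R i).card : ℝ≥0∞) := by
  refine Nat.cast_le.2 (Finset.card_le_card fun i hi => ?_)
  simp only [Finset.mem_filter, Finset.mem_univ, true_and] at hi ⊢
  by_contra h
  have h1 := hR i h
  unfold Den at h1
  have h2 := ENNReal.tsum_eq_zero.1 h1 b
  rw [ENNReal.ofReal_eq_zero] at h2
  have h3 : 0 < ‖(Z b).a i z‖ := norm_pos_iff.2 hi
  nlinarith

theorem rpow_le_of_le {N : ℕ} {M0 : ℝ≥0∞} {x e : ℝ} (he : 0 ≤ e) (hx : x = 2 - e) (hN : M0 ≤ N)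
    (hM : 1 ≤ M0) : (N : ℝ≥0∞) ^ x ≤ M0 ^ (-e) * (N : ℝ≥0∞) ^ 2 := by
  have hN1 : (1 : ℝ≥0∞) ≤ N := hM.trans hN
  have hN0 : (N : ℝ≥0∞) ≠ 0 := by
    intro h; rw [h] at hN1; simp at hN1
  have hNt : (N : ℝ≥0∞) ≠ ⊤ := ENNReal.natCast_ne_top N
  rw [hx, sub_eq_add_neg, ENNReal.rpow_add _ _ hN0 hNt, mul_comm]
  gcongr ?_ * ?_
  · rw [ENNReal.rpow_neg, ENNReal.rpow_neg]
    exact ENNReal.inv_le_inv.2 (ENNReal.rpow_le_rpow hN he)
  · exact_mod_cast le_of_eq (ENNReal.rpow_natCast (N : ℝ≥0∞) 2)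

open Classical in
/-- the number of the tubes through `z` -/
def Nt (R : ι → Set (ℝ × ℝ)) (z : ℝ × ℝ) : ℕ := (Finset.univ.filter fun i => z ∈ R i).card

open Classical in
theorem measurable_Nt {R : ι → Set (ℝ × ℝ)} (hRm : ∀ i, MeasurableSet (R i)) :
    Measurable fun z => (Nt R z : ℝ≥0∞) := by
  have : (fun z => (Nt R z : ℝ≥0∞)) = fun z => ∑ i, (R i).indicator (fun _ => (1 : ℝ≥0∞)) z := by
    funext z
    unfold Nt
    rw [Finset.card_filter]
    push_cast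
    refine Finset.sum_congr rfl fun i _ => ?_
    by_cases h : z ∈ R i <;> simp [h]
  rw [this]
  exact Finset.measurable_sum _ fun i _ => measurable_const.indicator (hRm i)

/-- the general form of the second factor: a pointwise bound `W` of `N ^ (2 β - 1) * ∑ D_i`. -/
theorem use_gen (Z : ∀ b, Sys ι (kap b)) {β : ℝ} (h1 : 1 / 2 ≤ β)
    {F : Set (ℝ × ℝ)} {C : ℝ≥0∞} (R : ι → Set (ℝ × ℝ)) (hF : MeasurableSet F)
    (hheart : ∀ b, ∫⁻ z in F, (Z b).phi β Finset.univ z ≤ C * ∫⁻ z, (Z b).sq Finset.univ z)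
    (hR : ∀ z ∈ F, ∀ i, z ∉ R i → Den Z i z = 0) {W : ℝ≥0∞}
    (hW : ∫⁻ z in F, (Nt R z : ℝ≥0∞) ^ (2 * β - 1) * ∑ i, Den Z i z ≤ W) :
    ∫⁻ z in F, ∑' b, ENNReal.ofReal (‖(Z b).G Finset.univ z‖ ^ 2) ≤
      (C * ∑ i, ∫⁻ z, Den Z i z) ^ (1 / 2 : ℝ) * W ^ (1 / 2 : ℝ) := by
  classical
  refine (use Z h1 (N := fun z => (Nt R z : ℝ≥0∞))
    hF hheart fun z hz b => ?_).trans ?_
  · have := card_le_of_support Z (hR z hz) b
    unfold Nt
    exact this
  gcongr ?_ ^ (1 / 2 : ℝ) * ?_ ^ (1 / 2 : ℝ)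
  · gcongr
    rw [← lintegral_finsetSum _ fun i _ => measurable_Den Z i]
    exact le_of_eq (lintegral_congr fun z => tsum_sq Z z)
  · refine le_trans (le_of_eq (lintegral_congr fun z => ?_)) hW
    rw [tsum_sq]

omit [Countable B] in
theorem sum_Den_eq (Z : ∀ b, Sys ι (kap b)) (R : ι → Set (ℝ × ℝ)) {z : ℝ × ℝ}
    (hR : ∀ i, z ∉ R i → Den Z i z = 0) [DecidablePred fun i => z ∈ R i] :
    ∑ i, Den Z i z = ∑ i ∈ Finset.univ.filter (fun i => z ∈ R i), Den Z i z := by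
  rw [Finset.sum_filter]
  refine Finset.sum_congr rfl fun i _ => ?_
  by_cases h : z ∈ R i
  · simp [h]
  · simp [h, hR i h]

/-- **(d1)** closing form with a pointwise bound of the energies: `Den i ≤ c2 1_{R i}`;
`N z = #{i | z ∈ R i} ≥ M0` on `F`. -/
theorem use_bdd (Z : ∀ b, Sys ι (kap b)) {β : ℝ} (h1 : 1 / 2 ≤ β) (h2 : β ≤ 1)
    {F : Set (ℝ × ℝ)} {C c2 M0 : ℝ≥0∞} (R : ι → Set (ℝ × ℝ)) (hRm : ∀ i, MeasurableSet (R i))
    (hF : MeasurableSet F)
    (hheart : ∀ b, ∫⁻ z in F, (Z b).phi β Finset.univ z ≤ C * ∫⁻ z, (Z b).sq Finset.univ z)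
    (hR : ∀ z ∈ F, ∀ i, z ∉ R i → Den Z i z = 0) (hc : ∀ z ∈ F, ∀ i, Den Z i z ≤ c2)
    (hM : 1 ≤ M0) (hN : ∀ z ∈ F, M0 ≤ (Nt R z : ℝ≥0∞)) :
    ∫⁻ z in F, ∑' b, ENNReal.ofReal (‖(Z b).G Finset.univ z‖ ^ 2) ≤
      (C * ∑ i, ∫⁻ z, Den Z i z) ^ (1 / 2 : ℝ) *
        (c2 * (M0 ^ (-(2 * (1 - β))) * ∫⁻ z in F, (Nt R z : ℝ≥0∞) ^ 2)) ^ (1 / 2 : ℝ) := by
  classical
  refine use_gen Z h1 R hF hheart hR ?_
  calc ∫⁻ z in F, (Nt R z : ℝ≥0∞) ^ (2 * β - 1) * ∑ i, Den Z i z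
      ≤ ∫⁻ z in F, c2 * (M0 ^ (-(2 * (1 - β))) * (Nt R z : ℝ≥0∞) ^ 2) := by
        refine setLIntegral_mono_ae' hF (Filter.Eventually.of_forall fun z hz => ?_)
        set n := Nt R z with hn
        have hn1 : (1 : ℝ≥0∞) ≤ n := hM.trans (hN z hz)
        have hn0 : (n : ℝ≥0∞) ≠ 0 := by
          intro h; rw [h] at hn1; simp at hn1
        have hsum : ∑ i, Den Z i z ≤ n * c2 := by
          calc ∑ i, Den Z i z = ∑ i ∈ Finset.univ.filter (fun i => z ∈ R i), Den Z i z :=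
                sum_Den_eq Z R (hR z hz)
            _ ≤ ∑ i ∈ Finset.univ.filter (fun i => z ∈ R i), c2 :=
                Finset.sum_le_sum fun i _ => hc z hz i
            _ = n * c2 := by
                rw [Finset.sum_const, nsmul_eq_mul, hn]; rfl
        calc (n : ℝ≥0∞) ^ (2 * β - 1) * ∑ i, Den Z i z
            ≤ (n : ℝ≥0∞) ^ (2 * β - 1) * (n * c2) := by gcongr
          _ = c2 * (n : ℝ≥0∞) ^ (2 * β) := by
              have : (n : ℝ≥0∞) ^ (2 * β) = (n : ℝ≥0∞) ^ (2 * β - 1) * n := by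
                conv_rhs => rw [← ENNReal.rpow_one (n : ℝ≥0∞), ← ENNReal.rpow_mul, one_mul]
                rw [← ENNReal.rpow_add _ _ hn0 (ENNReal.natCast_ne_top n)]
                congr 1; ring
              rw [this]; ring
          _ ≤ _ := by
              gcongr
              exact rpow_le_of_le (by linarith) (by ring) (hN z hz) hM
    _ = _ := by
        rw [lintegral_const_mul _ (((measurable_Nt hRm).pow_const 2).const_mul _),
          lintegral_const_mul _ ((measurable_Nt hRm).pow_const 2)]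

/-- Hölder for the sum of the energies at one point. -/
theorem sum_Den_le (Z : ∀ b, Sys ι (kap b)) {p : ℝ} (hp : 1 < p) (R : ι → Set (ℝ × ℝ))
    {z : ℝ × ℝ} (hR : ∀ i, z ∉ R i → Den Z i z = 0) :
    ∑ i, Den Z i z ≤ (Nt R z : ℝ≥0∞) ^ (1 - 1 / p) * (∑ i, Den Z i z ^ p) ^ (1 / p) := by
  classical
  have hpq : p.HolderConjugate (p / (p - 1)) := Real.HolderConjugate.conjExponent hp
  have h := ENNReal.inner_le_Lp_mul_Lq (Finset.univ.filter (fun i => z ∈ R i))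
    (fun i => Den Z i z) (fun _ => 1) hpq
  rw [sum_Den_eq Z R hR]
  simp only [mul_one, ENNReal.one_rpow, Finset.sum_const, nsmul_eq_mul] at h
  refine h.trans ?_
  rw [mul_comm]
  have e1 : 1 / (p / (p - 1)) = 1 - 1 / p := by
    have : p ≠ 0 := by linarith
    have h2 : p - 1 ≠ 0 := by linarith
    field_simp
  rw [e1]
  gcongr ?_ * ?_ ^ (1 / p)
  · exact le_of_eq rfl
  · exact Finset.sum_le_sum_of_subset (Finset.filter_subset _ _)

/-- **(d2)** closing form with `L^p` bounds of the energies, `p ≥ 1 / (2 (1 - β))`. -/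
theorem use_Lp (Z : ∀ b, Sys ι (kap b)) {β p : ℝ} (h1 : 1 / 2 ≤ β) (hp : 1 < p)
    (hpβ : 1 ≤ 2 * p * (1 - β))
    {F : Set (ℝ × ℝ)} {C M0 : ℝ≥0∞} (R : ι → Set (ℝ × ℝ)) (hRm : ∀ i, MeasurableSet (R i))
    (hF : MeasurableSet F)
    (hheart : ∀ b, ∫⁻ z in F, (Z b).phi β Finset.univ z ≤ C * ∫⁻ z, (Z b).sq Finset.univ z)
    (hR : ∀ z ∈ F, ∀ i, z ∉ R i → Den Z i z = 0)
    (hM : 1 ≤ M0) (hN : ∀ z ∈ F, M0 ≤ (Nt R z : ℝ≥0∞)) :
    ∫⁻ z in F, ∑' b, ENNReal.ofReal (‖(Z b).G Finset.univ z‖ ^ 2) ≤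
      (C * ∑ i, ∫⁻ z, Den Z i z) ^ (1 / 2 : ℝ) *
        ((∑ i, ∫⁻ z in F, Den Z i z ^ p) ^ (1 / p) *
          (M0 ^ (-((2 * p * (1 - β) - 1) / (p - 1))) *
            ∫⁻ z in F, (Nt R z : ℝ≥0∞) ^ 2) ^ (1 - 1 / p)) ^ (1 / 2 : ℝ) := by
  classical
  have hp0 : p ≠ 0 := by linarith
  have hp1 : p - 1 ≠ 0 := by linarith
  have hpq : p.HolderConjugate (p / (p - 1)) := Real.HolderConjugate.conjExponent hp
  refine use_gen Z h1 R hF hheart hR ?_
  have mD : Measurable fun z => (∑ i, Den Z i z ^ p) ^ (1 / p) :=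
    (Finset.measurable_sum _ fun i _ => (measurable_Den Z i).pow_const p).pow_const _
  have mN : Measurable fun z => (Nt R z : ℝ≥0∞) ^ (2 * β - 1 / p) :=
    (measurable_Nt hRm).pow_const _
  calc ∫⁻ z in F, (Nt R z : ℝ≥0∞) ^ (2 * β - 1) * ∑ i, Den Z i z
      ≤ ∫⁻ z in F, ((fun z => (∑ i, Den Z i z ^ p) ^ (1 / p)) *
          fun z => (Nt R z : ℝ≥0∞) ^ (2 * β - 1 / p)) z := by
        refine setLIntegral_mono_ae' hF (Filter.Eventually.of_forall fun z hz => ?_)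
        have hn1 : (1 : ℝ≥0∞) ≤ Nt R z := hM.trans (hN z hz)
        have hn0 : (Nt R z : ℝ≥0∞) ≠ 0 := by
          intro h; rw [h] at hn1; simp at hn1
        have := sum_Den_le Z hp R (hR z hz)
        calc (Nt R z : ℝ≥0∞) ^ (2 * β - 1) * ∑ i, Den Z i z
            ≤ (Nt R z : ℝ≥0∞) ^ (2 * β - 1) *
              ((Nt R z : ℝ≥0∞) ^ (1 - 1 / p) * (∑ i, Den Z i z ^ p) ^ (1 / p)) := by gcongr
          _ = (∑ i, Den Z i z ^ p) ^ (1 / p) *
              ((Nt R z : ℝ≥0∞) ^ (2 * β - 1) * (Nt R z : ℝ≥0∞) ^ (1 - 1 / p)) := by ring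
          _ = _ := by
              rw [← ENNReal.rpow_add _ _ hn0 (ENNReal.natCast_ne_top _)]
              simp only [Pi.mul_apply]
              congr 2
              ring
    _ ≤ (∫⁻ z in F, ((∑ i, Den Z i z ^ p) ^ (1 / p)) ^ p) ^ (1 / p) *
        (∫⁻ z in F, ((Nt R z : ℝ≥0∞) ^ (2 * β - 1 / p)) ^ (p / (p - 1))) ^
          (1 / (p / (p - 1))) :=
        ENNReal.lintegral_mul_le_Lp_mul_Lq _ hpq mD.aemeasurable mN.aemeasurable
    _ ≤ _ := by
        have e1 : 1 / (p / (p - 1)) = 1 - 1 / p := by field_simp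
        have hnn : 0 ≤ 1 - 1 / p := by
          rw [sub_nonneg, div_le_one (by linarith)]; exact hp.le
        rw [e1]
        gcongr ?_ ^ (1 / p) * ?_ ^ (1 - 1 / p)
        · rw [← lintegral_finsetSum _ fun i _ => (measurable_Den Z i).pow_const p]
          refine le_of_eq (lintegral_congr fun z => ?_)
          rw [← ENNReal.rpow_mul, one_div_mul_cancel hp0, ENNReal.rpow_one]
        · rw [← lintegral_const_mul _ ((measurable_Nt hRm).pow_const 2)]
          refine setLIntegral_mono_ae' hF (Filter.Eventually.of_forall fun z hz => ?_)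
          rw [← ENNReal.rpow_mul]
          refine rpow_le_of_le ?_ ?_ (hN z hz) hM
          · exact div_nonneg (by linarith) (by linarith)
          · field_simp
            ring

end Vale.Agent.P112.H22.Use

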